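import Mathlib

-- ▼ part R44/Defs
section

/-! R44 (circulant Hadamard matrices): definitions. -/

set_option autoImplicit false

namespace Crest.Agent.R44

/-- `h : ZMod n → ℤ` is a `±1` sequence with vanishing periodic autocorrelations. -/
structure PerfSeq (n : ℕ) [NeZero n] (h : ZMod n → ℤ) : Prop where
  pm : ∀ j, h j = 1 ∨ h j = -1
  corr : ∀ l : ZMod n, l ≠ 0 → ∑ j, h (j + l) * h j = 0

/-- Evaluation of `H(x) = ∑ h_j x^j` in a commutative ring. -/
noncomputable def ev {n : ℕ} [NeZero n] {A : Type*} [CommRing A] (h : ZMod n → ℤ) (x : A) : A :=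
  ∑ j : ZMod n, (h j : A) * x ^ j.val

end Crest.Agent.R44
end

-- ▼ part R44/Basic
section

set_option autoImplicit false

namespace Crest.Agent.R44

theorem pow_val_add {n : ℕ} [NeZero n] {A : Type*} [CommRing A] (x : A) (hx : x ^ n = 1)
    (a b : ZMod n) : x ^ (a + b).val = x ^ a.val * x ^ b.val := by
  rw [ZMod.val_add, ← pow_add]
  conv_rhs => rw [← Nat.div_add_mod (a.val + b.val) n, pow_add, pow_mul, hx, one_pow, one_mul]

/-- Step 0: `H(x) H(y) = n` whenever `x^n = 1`, `x y = 1`, in any commutative ring. -/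
theorem ev_mul_ev {n : ℕ} [NeZero n] {h : ZMod n → ℤ} (hp : PerfSeq n h)
    {A : Type*} [CommRing A] (x y : A) (hx : x ^ n = 1) (hxy : x * y = 1) :
    ev h x * ev h y = (n : A) := by
  have key : ∀ l k : ZMod n, x ^ (l + k).val * y ^ k.val = x ^ l.val := by
    intro l k
    rw [pow_val_add x hx, mul_assoc, ← mul_pow, hxy, one_pow, mul_one]
  unfold ev
  rw [Finset.sum_mul_sum, Finset.sum_comm]
  have h1 : ∀ k : ZMod n, ∑ j : ZMod n, (h j : A) * x ^ j.val * ((h k : A) * y ^ k.val)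
      = ∑ l : ZMod n, (h (l + k) : A) * (h k : A) * x ^ l.val := by
    intro k
    rw [← Equiv.sum_comp (Equiv.addRight k)]
    refine Finset.sum_congr rfl fun l _ => ?_
    simp only [Equiv.coe_addRight]
    rw [← key l k]
    ring
  rw [Finset.sum_congr rfl fun k _ => h1 k, Finset.sum_comm]
  have h2 : ∀ l : ZMod n, ∑ k : ZMod n, (h (l + k) : A) * (h k : A) * x ^ l.val
      = ((∑ k : ZMod n, h (k + l) * h k : ℤ) : A) * x ^ l.val := by
    intro l
    rw [← Finset.sum_mul]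
    push_cast
    congr 1
    refine Finset.sum_congr rfl fun k _ => ?_
    rw [add_comm l k]
  rw [Finset.sum_congr rfl fun l _ => h2 l, Finset.sum_eq_single (0 : ZMod n)]
  · have h3 : ∑ k : ZMod n, h (k + 0) * h k = (n : ℤ) := by
      have : ∀ k : ZMod n, h (k + 0) * h k = 1 := by
        intro k
        rw [add_zero]
        rcases hp.pm k with hk | hk <;> rw [hk] <;> norm_num
      rw [Finset.sum_congr rfl fun k _ => this k]
      simp [ZMod.card]
    rw [h3, ZMod.val_zero, pow_zero, mul_one]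
    simp
  · intro l _ hl
    rw [hp.corr l hl]
    simp
  · intro h0
    exact absurd (Finset.mem_univ _) h0

/-- `ev` commutes with ring homs. -/
theorem map_ev {n : ℕ} [NeZero n] (h : ZMod n → ℤ) {A B : Type*} [CommRing A] [CommRing B]
    (f : A →+* B) (x : A) : f (ev h x) = ev h (f x) := by
  unfold ev
  rw [map_sum]
  refine Finset.sum_congr rfl fun j _ => ?_
  rw [map_mul, map_pow, map_intCast]

/-- complex absolute value: `‖H(x)‖^2 = n` for every complex `n`-th root of unity. -/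
theorem norm_ev_sq {n : ℕ} [NeZero n] {h : ZMod n → ℤ} (hp : PerfSeq n h)
    (x : ℂ) (hx : x ^ n = 1) : ‖ev h x‖ ^ 2 = (n : ℝ) := by
  have hnorm : ‖x‖ = 1 := Complex.norm_eq_one_of_pow_eq_one hx (NeZero.ne n)
  have hxy : x * (starRingEnd ℂ) x = 1 := by
    rw [Complex.mul_conj, Complex.normSq_eq_norm_sq, hnorm]
    simp
  have h1 := ev_mul_ev hp x ((starRingEnd ℂ) x) hx hxy
  rw [← map_ev h (starRingEnd ℂ) x, Complex.mul_conj, Complex.normSq_eq_norm_sq] at h1
  exact_mod_cast h1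

/-- A circulant Hadamard matrix gives a perfect sequence. -/
theorem perfSeq_of_circulant (m : ℕ) (h : Fin (m + 1) → ℤ) (hpm : ∀ i, h i = 1 ∨ h i = -1)
    (hH : Matrix.circulant h * (Matrix.circulant h).transpose
      = ((m + 1 : ℕ) : ℤ) • (1 : Matrix (Fin (m + 1)) (Fin (m + 1)) ℤ)) :
    PerfSeq (m + 1) (h : ZMod (m + 1) → ℤ) := by
  refine ⟨hpm, fun l hl => ?_⟩
  have h1 := congrFun (congrFun hH l) 0
  rw [Matrix.mul_apply] at h1
  simp only [Matrix.transpose_apply, Matrix.circulant_apply, Matrix.smul_apply] at h1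
  have h2 : (1 : Matrix (Fin (m + 1)) (Fin (m + 1)) ℤ) l 0 = 0 := Matrix.one_apply_ne hl
  rw [h2, smul_zero] at h1
  have h3 : ∀ l : Fin (m + 1), ∑ j : Fin (m + 1), h (j + l) * h j
      = ∑ j : Fin (m + 1), h (l - j) * h (0 - j) := by
    intro l
    rw [← Equiv.sum_comp (Equiv.neg (Fin (m + 1)))]
    refine Finset.sum_congr rfl fun j _ => ?_
    simp only [Equiv.neg_apply, zero_sub]
    rw [sub_eq_add_neg, add_comm l (-j)]
  exact (h3 l).trans h1

end Crest.Agent.R44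
end

-- ▼ part R44/Local
section

set_option autoImplicit false

open Polynomial

namespace Crest.Agent.R44

section aux

variable {R : Type*} [CommRing R]

theorem clear_finset (M : Ideal R) [M.IsPrime] (p : ℕ)
    (hfrob : ∀ a ∈ M, ∃ s : R, s ∉ M ∧ ∃ b : R, s * a = (p : R) * b)
    (c : ℕ → R) (hc : ∀ i, c i ∈ M) (A : Finset ℕ) :
    ∃ s : R, s ∉ M ∧ ∀ i ∈ A, (p : R) ∣ s * c i := by
  classical
  induction A using Finset.induction_on with
  | empty => exact ⟨1, (Ideal.ne_top_iff_one M).mp ‹M.IsPrime›.ne_top, by simp⟩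
  | insert a A ha ih =>
    obtain ⟨s, hs, hA⟩ := ih
    obtain ⟨s', hs', b, hb⟩ := hfrob (c a) (hc a)
    refine ⟨s * s', fun h => ?_, ?_⟩
    · rcases ‹M.IsPrime›.mem_or_mem h with h | h
      · exact hs h
      · exact hs' h
    · intro i hi
      rcases Finset.mem_insert.mp hi with rfl | hi
      · exact ⟨s * b, by rw [mul_assoc, hb]; ring⟩
      · obtain ⟨d, hd⟩ := hA i hi
        exact ⟨s' * d, by rw [mul_right_comm, hd]; ring⟩

theorem clear_denoms (M : Ideal R) [M.IsPrime] (p : ℕ)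
    (hfrob : ∀ a ∈ M, ∃ s : R, s ∉ M ∧ ∃ b : R, s * a = (p : R) * b)
    (F : R[X]) (hF : ∀ i, F.coeff i ∈ M) :
    ∃ s : R, s ∉ M ∧ ∃ G : R[X], C s * F = C (p : R) * G := by
  obtain ⟨s, hs, h⟩ := clear_finset M p hfrob F.coeff hF F.support
  refine ⟨s, hs, ?_⟩
  have : C (p : R) ∣ C s * F := by
    rw [Polynomial.C_dvd_iff_dvd_coeff]
    intro i
    rw [coeff_C_mul]
    by_cases hi : i ∈ F.support
    · exact h i hi
    · rw [notMem_support_iff.mp hi, mul_zero]
      exact dvd_zero _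
  exact this

theorem pow_dvd_or {k : Type*} [CommRing k] [IsDomain k] (f g : k[X]) (A B N : ℕ)
    (hN : A + B ≤ N + 1) (h : (X - 1 : k[X]) ^ N ∣ f * g) :
    (X - 1 : k[X]) ^ A ∣ f ∨ (X - 1 : k[X]) ^ B ∣ g := by
  have hpr : Prime (X - 1 : k[X]) := by
    have := prime_X_sub_C (1 : k)
    simpa using this
  by_contra hcon
  rw [not_or] at hcon
  obtain ⟨h1, h2⟩ := hcon
  rw [pow_dvd_iff_le_emultiplicity] at h h1 h2
  rw [emultiplicity_mul hpr] at h
  rw [not_le] at h1 h2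
  have e1 : emultiplicity (X - 1 : k[X]) f ≠ ⊤ := ne_top_of_lt h1
  have e2 : emultiplicity (X - 1 : k[X]) g ≠ ⊤ := ne_top_of_lt h2
  obtain ⟨a, ha⟩ := ENat.ne_top_iff_exists.mp e1
  obtain ⟨b, hb⟩ := ENat.ne_top_iff_exists.mp e2
  rw [← ha] at h h1
  rw [← hb] at h h2
  norm_cast at h h1 h2
  omega

theorem X_pow_sub_one_char {k : Type*} [CommRing k] (p : ℕ) [Fact p.Prime] [CharP k p] (m : ℕ) :
    (X ^ (p ^ m) - 1 : k[X]) = (X - 1) ^ (p ^ m) := by
  rw [sub_pow_char_pow, one_pow]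

/-- if the reduction of `F` is divisible by `(X-1)^(p^m)` then, after clearing denominators,
`F` is divisible by `p` modulo `X^(p^m) - 1`. -/
theorem lift_dvd (M : Ideal R) [M.IsPrime] (p : ℕ) [Fact p.Prime] (hpM : (p : R) ∈ M)
    (hfrob : ∀ a ∈ M, ∃ s : R, s ∉ M ∧ ∃ b : R, s * a = (p : R) * b)
    (F : R[X]) (m : ℕ)
    (h : (X - 1 : (R ⧸ M)[X]) ^ (p ^ m) ∣ F.map (Ideal.Quotient.mk M)) :
    ∃ s : R, s ∉ M ∧ ∃ G : R[X], (X ^ (p ^ m) - 1 : R[X]) ∣ C s * F - C (p : R) * G := by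
  haveI : CharP (R ⧸ M) p := by
    rw [CharP.charP_iff_prime_eq_zero (Fact.out : p.Prime)]
    have := (Ideal.Quotient.eq_zero_iff_mem (I := M)).mpr hpM
    simpa using this
  obtain ⟨q, hq⟩ := h
  obtain ⟨Q, rfl⟩ := Polynomial.map_surjective _ Ideal.Quotient.mk_surjective q
  have hE : ∀ i, (F - (X ^ (p ^ m) - 1) * Q).coeff i ∈ M := by
    intro i
    rw [← Ideal.Quotient.eq_zero_iff_mem, ← coeff_map]
    have : (F - (X ^ (p ^ m) - 1) * Q).map (Ideal.Quotient.mk M) = 0 := by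
      rw [Polynomial.map_sub, Polynomial.map_mul, hq, Polynomial.map_sub, Polynomial.map_pow,
        map_X, Polynomial.map_one, X_pow_sub_one_char p m, sub_self]
    rw [this, coeff_zero]
  obtain ⟨s, hs, G, hG⟩ := clear_denoms M p hfrob _ hE
  refine ⟨s, hs, G, C s * Q, ?_⟩
  rw [← hG]
  ring

theorem p_regular [IsDomain R] (c : R) (hc : c ≠ 0) (N : ℕ) (hN : N ≠ 0) (Y : R[X])
    (h : (X ^ N - 1 : R[X]) ∣ C c * Y) : (X ^ N - 1 : R[X]) ∣ Y := by
  have hm : (X ^ N - 1 : R[X]).Monic := by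
    have := monic_X_pow_sub_C (1 : R) hN
    simpa using this
  rw [← modByMonic_eq_zero_iff_dvd hm] at h ⊢
  rw [← smul_eq_C_mul, smul_modByMonic] at h
  rcases smul_eq_zero.mp h with h | h
  · exact absurd h hc
  · exact h

end aux

/-- Step 2 (LOCAL LEMMA). -/
theorem local_lemma {R : Type*} [CommRing R] [IsDomain R] [CharZero R]
    (M : Ideal R) [M.IsPrime] (p : ℕ) [Fact p.Prime] (hpM : (p : R) ∈ M)
    (hfrob : ∀ a ∈ M, ∃ s : R, s ∉ M ∧ ∃ b : R, s * a = (p : R) * b)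
    (t : ℕ) : ∀ (e : ℕ) (F F' U : R[X]), 1 ≤ t → e ≤ t →
      (X ^ (p ^ t) - 1 : R[X]) ∣ F * F' - C ((p : R) ^ e) * U → U.eval 1 ∉ M →
      ∃ (c : ℕ) (s : R) (G : R[X]), s ∉ M ∧ G.eval 1 ∉ M ∧
        (X ^ p - 1 : R[X]) ∣ C s * F - C ((p : R) ^ c) * G := by
  have hp : p.Prime := Fact.out
  have hp0 : (p : R) ≠ 0 := by exact_mod_cast hp.ne_zero
  have hone : (1 : R) ∉ M := (Ideal.ne_top_iff_one M).mp ‹M.IsPrime›.ne_top
  haveI : CharP (R ⧸ M) p := by
    rw [CharP.charP_iff_prime_eq_zero hp]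
    have := (Ideal.Quotient.eq_zero_iff_mem (I := M)).mpr hpM
    simpa using this
  have mulM : ∀ {a b : R}, a ∉ M → b ∉ M → a * b ∉ M := by
    intro a b ha hb h
    rcases ‹M.IsPrime›.mem_or_mem h with h | h
    · exact ha h
    · exact hb h
  -- the case where `F(1)` is a unit mod `M`
  have easy : ∀ F : R[X], F.eval 1 ∉ M → ∃ (c : ℕ) (s : R) (G : R[X]), s ∉ M ∧ G.eval 1 ∉ M ∧
        (X ^ p - 1 : R[X]) ∣ C s * F - C ((p : R) ^ c) * G := by
    intro F hF
    exact ⟨0, 1, F, hone, hF, by simp⟩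
  induction t with
  | zero => intro e F F' U h1; omega
  | succ t ih =>
    intro e F F' U _ he hdvd hU
    -- evaluation at 1
    have hev : F.eval 1 * F'.eval 1 = (p : R) ^ e * U.eval 1 := by
      obtain ⟨W, hW⟩ := hdvd
      have := congrArg (Polynomial.eval 1) hW
      simp only [eval_sub, eval_mul, eval_C, eval_pow, eval_X, one_pow, eval_one, sub_self,
        zero_mul] at this
      exact sub_eq_zero.mp this
    by_cases hF1 : F.eval 1 ∉ M
    · exact easy F hF1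
    rw [not_not] at hF1
    -- then `e ≥ 1`
    rcases Nat.eq_zero_or_pos e with rfl | hepos
    · exfalso
      rw [pow_zero, one_mul] at hev
      apply hU
      rw [← hev]
      exact Ideal.mul_mem_right _ _ hF1
    obtain ⟨e, rfl⟩ : ∃ e', e = e' + 1 := ⟨e - 1, by omega⟩
    -- reduction mod M
    have hred : (X - 1 : (R ⧸ M)[X]) ^ (p ^ (t + 1)) ∣
        F.map (Ideal.Quotient.mk M) * F'.map (Ideal.Quotient.mk M) := by
      rw [← X_pow_sub_one_char p (t + 1)]
      have := Polynomial.map_dvd (Ideal.Quotient.mk M) hdvd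
      have hpz : (Ideal.Quotient.mk M) (p : R) = 0 := Ideal.Quotient.eq_zero_iff_mem.mpr hpM
      simpa [Polynomial.map_sub, Polynomial.map_mul, hpz, pow_succ] using this
    rcases Nat.eq_zero_or_pos t with rfl | htpos
    · -- t + 1 = 1
      have he0 : e = 0 := by omega
      subst he0
      simp only [zero_add, pow_one] at hdvd hred hev
      obtain ⟨s₁, hs₁, f, hf⟩ := hfrob _ hF1
      have h3 : f * F'.eval 1 = s₁ * U.eval 1 := by
        apply mul_left_cancel₀ hp0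
        calc (p : R) * (f * F'.eval 1) = (s₁ * F.eval 1) * F'.eval 1 := by rw [hf]; ring
          _ = s₁ * (F.eval 1 * F'.eval 1) := by ring
          _ = _ := by rw [hev]; ring
      have hfF' : f * F'.eval 1 ∉ M := by rw [h3]; exact mulM hs₁ hU
      have hfM : f ∉ M := fun h => hfF' (Ideal.mul_mem_right _ _ h)
      have hF'M : F'.eval 1 ∉ M := fun h => hfF' (Ideal.mul_mem_left _ _ h)
      have hdv : (X - 1 : (R ⧸ M)[X]) ^ (p ^ 1) ∣ F.map (Ideal.Quotient.mk M) := by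
        rcases pow_dvd_or _ _ p 1 p (by omega) hred with h | h
        · rwa [pow_one]
        · exfalso
          rw [pow_one] at h
          obtain ⟨W, hW⟩ := h
          have := congrArg (Polynomial.eval 1) hW
          rw [eval_mul, eval_sub, eval_X, eval_one, sub_self, zero_mul] at this
          apply hF'M
          rw [← Ideal.Quotient.eq_zero_iff_mem]
          rw [← Polynomial.eval_one_map]
          exact this
      obtain ⟨s₂, hs₂, G, hG⟩ := lift_dvd M p hpM hfrob F 1 hdv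
      rw [pow_one] at hG
      refine ⟨1, s₂, G, hs₂, ?_, by rwa [pow_one]⟩
      -- s₂ f = s₁ G(1)
      have hG1 : s₂ * F.eval 1 = (p : R) * G.eval 1 := by
        obtain ⟨W, hW⟩ := hG
        have := congrArg (Polynomial.eval 1) hW
        simp only [eval_sub, eval_mul, eval_C, eval_pow, eval_X, one_pow, eval_one, sub_self,
          zero_mul] at this
        exact sub_eq_zero.mp this
      have h4 : s₂ * f = s₁ * G.eval 1 := by
        apply mul_left_cancel₀ hp0
        calc (p : R) * (s₂ * f) = s₂ * (s₁ * F.eval 1) := by rw [hf]; ring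
          _ = s₁ * (s₂ * F.eval 1) := by ring
          _ = _ := by rw [hG1]; ring
      intro hcon
      exact mulM hs₂ hfM (by rw [h4]; exact Ideal.mul_mem_left _ _ hcon)
    · -- inductive step
      have hsmall : (X ^ (p ^ t) - 1 : R[X]) ∣ X ^ (p ^ (t + 1)) - 1 := by
        rw [pow_succ, pow_mul]
        have := sub_dvd_pow_sub_pow (X ^ (p ^ t) : R[X]) 1 p
        simpa using this
      have hsmall1 : (X ^ p - 1 : R[X]) ∣ X ^ (p ^ t) - 1 := by
        obtain ⟨t', rfl⟩ : ∃ t', t = t' + 1 := ⟨t - 1, by omega⟩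
        rw [pow_succ, mul_comm, pow_mul]
        have := sub_dvd_pow_sub_pow (X ^ p : R[X]) 1 (p ^ t')
        simpa using this
      have hdvd' := hsmall.trans hdvd
      have hpt : p ^ t ≠ 0 := pow_ne_zero _ hp.ne_zero
      have hsplit : p ^ t + p ^ t ≤ p ^ (t + 1) + 1 := by
        have h2 := hp.two_le
        have : 2 * p ^ t ≤ p ^ (t + 1) := by
          rw [pow_succ, mul_comm]
          exact Nat.mul_le_mul_left _ h2
        omega
      rcases pow_dvd_or _ _ (p ^ t) (p ^ t) _ hsplit hred with h | h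
      · -- F is divisible
        obtain ⟨s, hs, G, hG⟩ := lift_dvd M p hpM hfrob F t h
        have hGF' : (X ^ (p ^ t) - 1 : R[X]) ∣ G * F' - C ((p : R) ^ e) * (C s * U) := by
          apply p_regular (p : R) hp0 (p ^ t) hpt
          have e1 : C (p : R) * (G * F' - C ((p : R) ^ e) * (C s * U))
              = C s * (F * F' - C ((p : R) ^ (e + 1)) * U) - (C s * F - C (p : R) * G) * F' := by
            rw [pow_succ, C_mul]; ring
          rw [e1]
          exact dvd_sub (hdvd'.mul_left _) (hG.mul_right _)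
        obtain ⟨c, s', G', hs', hG'1, hG'⟩ := ih e G F' (C s * U) htpos (by omega) hGF'
          (by rw [eval_mul, eval_C]; exact mulM hs hU)
        refine ⟨c + 1, s' * s, G', mulM hs' hs, hG'1, ?_⟩
        have e2 : C (s' * s) * F - C ((p : R) ^ (c + 1)) * G'
            = C s' * (C s * F - C (p : R) * G) + C (p : R) * (C s' * G - C ((p : R) ^ c) * G') := by
          rw [pow_succ, C_mul, C_mul]; ring
        rw [e2]
        exact dvd_add ((hsmall1.trans hG).mul_left _) (hG'.mul_left _)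
      · -- F' is divisible
        obtain ⟨s, hs, G, hG⟩ := lift_dvd M p hpM hfrob F' t h
        have hFG : (X ^ (p ^ t) - 1 : R[X]) ∣ F * G - C ((p : R) ^ e) * (C s * U) := by
          apply p_regular (p : R) hp0 (p ^ t) hpt
          have e1 : C (p : R) * (F * G - C ((p : R) ^ e) * (C s * U))
              = C s * (F * F' - C ((p : R) ^ (e + 1)) * U) - (C s * F' - C (p : R) * G) * F := by
            rw [pow_succ, C_mul]; ring
          rw [e1]
          exact dvd_sub (hdvd'.mul_left _) (hG.mul_right _)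
        exact ih e F G (C s * U) htpos (by omega) hFG
          (by rw [eval_mul, eval_C]; exact mulM hs hU)

end Crest.Agent.R44
end

-- ▼ part R44/Star
section

set_option autoImplicit false

open Polynomial

namespace Crest.Agent.R44

/-- Frobenius on `ℤ[κ]` modulo `p`. -/
theorem frob_adjoin {O : Type*} [CommRing O] (p : ℕ) (hp : p.Prime) (f n' : ℕ)
    (κ : O) (hκ : κ ^ n' = 1) (hf : p ^ f ≡ 1 [MOD n']) (x : O)
    (hx : x ∈ Algebra.adjoin ℤ ({κ} : Set O)) :
    ∃ b ∈ Algebra.adjoin ℤ ({κ} : Set O), x ^ (p ^ f) - x = (p : O) * b := by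
  have : Fact p.Prime := ⟨hp⟩
  induction hx using Algebra.adjoin_induction with
  | mem x hx =>
    rw [Set.mem_singleton_iff] at hx
    subst hx
    refine ⟨0, Subalgebra.zero_mem _, ?_⟩
    have h1 : x ^ (p ^ f) = x ^ 1 := by
      rw [← pow_mod_orderOf, ← pow_mod_orderOf x 1]
      have : orderOf x ∣ n' := orderOf_dvd_of_pow_eq_one hκ
      rw [(hf.of_dvd this : p ^ f ≡ 1 [MOD orderOf x])]
    rw [h1]; simp
  | algebraMap r =>
    have h1 : (p : ℤ) ∣ r ^ (p ^ f) - r := by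
      rw [← ZMod.intCast_zmod_eq_zero_iff_dvd]
      push_cast
      rw [ZMod.pow_card_pow, sub_self]
    obtain ⟨b, hb⟩ := h1
    refine ⟨algebraMap ℤ O b, Subalgebra.algebraMap_mem _ _, ?_⟩
    rw [← map_pow, ← map_sub, hb]
    simp
  | add x y hx hy ihx ihy =>
    obtain ⟨b, hb, hxb⟩ := ihx
    obtain ⟨c, hc, hyc⟩ := ihy
    obtain ⟨r, hr⟩ := exists_add_pow_prime_pow_eq hp
      (⟨x, hx⟩ : Algebra.adjoin ℤ ({κ} : Set O)) ⟨y, hy⟩ f
    have hr' : (x + y) ^ p ^ f = x ^ p ^ f + y ^ p ^ f + (p : O) * x * y * (r : O) := by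
      have := congrArg (Subtype.val : Algebra.adjoin ℤ ({κ} : Set O) → O) hr
      simpa using this
    refine ⟨b + c + x * y * r, Subalgebra.add_mem _ (Subalgebra.add_mem _ hb hc)
      (Subalgebra.mul_mem _ (Subalgebra.mul_mem _ hx hy) r.2), ?_⟩
    rw [hr']
    calc x ^ p ^ f + y ^ p ^ f + (p : O) * x * y * (r : O) - (x + y)
        = (x ^ p ^ f - x) + (y ^ p ^ f - y) + (p : O) * (x * y * r) := by ring
      _ = _ := by rw [hxb, hyc]; ring
  | mul x y hx hy ihx ihy =>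
    obtain ⟨b, hb, hxb⟩ := ihx
    obtain ⟨c, hc, hyc⟩ := ihy
    refine ⟨b * y ^ (p ^ f) + x * c, Subalgebra.add_mem _ (Subalgebra.mul_mem _ hb
      (Subalgebra.pow_mem _ hy _)) (Subalgebra.mul_mem _ hx hc), ?_⟩
    calc (x * y) ^ (p ^ f) - x * y = (x ^ (p ^ f) - x) * y ^ (p ^ f) + x * (y ^ (p ^ f) - y) := by
          rw [mul_pow]; ring
      _ = _ := by rw [hxb, hyc]; ring

theorem quot_step {n : ℕ} [NeZero n] {h : ZMod n → ℤ} (hp : PerfSeq n h) (p e n' : ℕ)
    (hpe : n = p ^ e * n') {R A : Type*} [CommRing R] [CommRing A] (π : R[X] →+* A)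
    (κ' : R) (hκ' : κ' ^ n' = 1) (hX : (π X) ^ (p ^ e) = 1) :
    π (ev h (C κ' * X) * ev h ((C κ' * X) ^ (n - 1)) - C ((p : R) ^ e) * C (n' : R)) = 0 := by
  have hn0 : n ≠ 0 := NeZero.ne n
  have hxn : (π (C κ' * X)) ^ n = 1 := by
    have e2 : (π (C κ')) ^ n = 1 := by
      rw [← map_pow, ← C_pow, hpe, mul_comm, pow_mul, hκ', one_pow, C_1, map_one]
    have e3 : (π X) ^ n = 1 := by
      rw [hpe, pow_mul, hX, one_pow]
    rw [map_mul, mul_pow, e2, e3, one_mul]
  have hxx : (π (C κ' * X)) * (π ((C κ' * X) ^ (n - 1))) = 1 := by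
    rw [map_pow, ← pow_succ', Nat.sub_add_cancel (Nat.pos_of_ne_zero hn0), hxn]
  have key := ev_mul_ev hp (π (C κ' * X)) (π ((C κ' * X) ^ (n - 1))) hxn hxx
  rw [← map_ev, ← map_ev, ← map_mul] at key
  have h5 : (C ((p : R) ^ e) * C (n' : R) : R[X]) = ((n : ℕ) : R[X]) := by
    conv_rhs => rw [hpe]
    simp
  rw [h5, map_sub, map_natCast, key, sub_self]

theorem quot_dvd {n : ℕ} [NeZero n] {h : ZMod n → ℤ} (hp : PerfSeq n h) (p e n' : ℕ)
    (hpe : n = p ^ e * n') {R : Type*} [CommRing R] (κ' : R) (hκ' : κ' ^ n' = 1) :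
    (X ^ (p ^ e) - 1 : R[X]) ∣ ev h (C κ' * X) * ev h ((C κ' * X) ^ (n - 1))
      - C ((p : R) ^ e) * C (n' : R) := by
  obtain ⟨J, hJ⟩ : ∃ J : Ideal R[X], J = Ideal.span {(X ^ (p ^ e) - 1 : R[X])} := ⟨_, rfl⟩
  rw [← Ideal.mem_span_singleton, ← hJ, ← Ideal.Quotient.eq_zero_iff_mem]
  have hX : (Ideal.Quotient.mk J X) ^ (p ^ e) = 1 := by
    have : Ideal.Quotient.mk J (X ^ (p ^ e) - 1) = 0 := by
      rw [Ideal.Quotient.eq_zero_iff_mem, hJ]
      exact Ideal.mem_span_singleton_self _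
    rw [map_sub, map_pow, map_one] at this
    exact sub_eq_zero.mp this
  exact quot_step hp p e n' hpe (Ideal.Quotient.mk J) κ' hκ' hX

/-- Step 3 (*p). `O` is any domain of characteristic 0 (used for the ring of integers of a
cyclotomic field). Take `R = ℤ[κ] ⊆ O` (`Algebra.adjoin ℤ {κ}`), `M = Q ∩ R`. -/
theorem star {O : Type*} [CommRing O] [IsDomain O] [CharZero O]
    {n : ℕ} [NeZero n] {h : ZMod n → ℤ} (hp : PerfSeq n h)
    (p : ℕ) [Fact p.Prime] (e n' : ℕ) (hn : n = p ^ e * n') (he : 1 ≤ e) (hpn' : ¬ p ∣ n')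
    (κ ξ : O) (hκ : κ ^ n' = 1) (hξ : ξ ^ p = 1)
    (Q : Ideal O) [Q.IsPrime] (hpQ : (p : O) ∈ Q) :
    ∃ a b : O, a ∉ Q ∧ b ∉ Q ∧ a - b ∈ Q ∧ ev h (κ * ξ) * a = ev h κ * b := by
  have hpp : p.Prime := Fact.out
  have honeQ : (1 : O) ∉ Q := (Ideal.ne_top_iff_one Q).mp ‹Q.IsPrime›.ne_top
  have hcop : Nat.Coprime p n' := (Nat.Prime.coprime_iff_not_dvd hpp).mpr hpn'
  have hn'0 : n' ≠ 0 := by
    rintro rfl
    exact hpn' (dvd_zero _)
  -- the ring `R = ℤ[κ]`
  set R := Algebra.adjoin ℤ ({κ} : Set O) with hR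
  let κ' : R := ⟨κ, Algebra.subset_adjoin (Set.mem_singleton κ)⟩
  have hκ' : κ' ^ n' = 1 := by
    apply Subtype.ext
    simpa using hκ
  let ι : R →+* O := algebraMap R O
  have hι : ∀ x : R, ι x = (x : O) := fun x => rfl
  let M : Ideal R := Q.comap ι
  have hMprime : M.IsPrime := Ideal.IsPrime.comap ι
  have hpM : (p : R) ∈ M := by
    rw [Ideal.mem_comap, map_natCast]; exact hpQ
  have hfrob : ∀ a ∈ M, ∃ s : R, s ∉ M ∧ ∃ b : R, s * a = (p : R) * b := by
    intro a ha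
    have hf : p ^ n'.totient ≡ 1 [MOD n'] := Nat.ModEq.pow_totient hcop
    obtain ⟨b, hb, hab⟩ := frob_adjoin p hpp n'.totient n' κ hκ hf (a : O) a.2
    have hq : p ^ n'.totient ≠ 0 := pow_ne_zero _ hpp.ne_zero
    have hq1 : 1 < p ^ n'.totient := by
      apply Nat.one_lt_pow _ hpp.one_lt
      exact (Nat.totient_pos.mpr (Nat.pos_of_ne_zero hn'0)).ne'
    refine ⟨a ^ (p ^ n'.totient - 1) - 1, ?_, ⟨b, hb⟩, ?_⟩
    · intro hcon
      have h1 : a ^ (p ^ n'.totient - 1) ∈ M := by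
        obtain ⟨k, hk⟩ : ∃ k, p ^ n'.totient - 1 = k + 1 := ⟨p ^ n'.totient - 2, by omega⟩
        rw [hk, pow_succ]
        exact Ideal.mul_mem_left _ _ ha
      have h2 : (1 : R) ∈ M := by
        have := Ideal.sub_mem M h1 hcon
        simpa using this
      exact (Ideal.ne_top_iff_one M).mp hMprime.ne_top h2
    · apply Subtype.ext
      have h3 : ((a ^ (p ^ n'.totient - 1) - 1) * a : R) = a ^ (p ^ n'.totient) - a := by
        rw [sub_mul, one_mul, ← pow_succ, Nat.sub_add_cancel hq1.le]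
      rw [h3]
      simpa using hab
  -- the polynomials
  let x : R[X] := C κ' * X
  let F : R[X] := ev h x
  let F' : R[X] := ev h (x ^ (n - 1))
  have hn0 : n ≠ 0 := NeZero.ne n
  have hpe : n = p ^ e * n' := hn
  have hdvd : (X ^ (p ^ e) - 1 : R[X]) ∣ F * F' - C ((p : R) ^ e) * C (n' : R) := by
    exact quot_dvd hp p e n' hn κ' hκ'
  have hU : (C (n' : R) : R[X]).eval 1 ∉ M := by
    rw [eval_C]
    intro hcon
    have h1 : (n' : O) ∈ Q := by
      have := Ideal.mem_comap.mp hcon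
      rwa [map_natCast] at this
    have h2 : (1 : O) ∈ Q := by
      have hc : IsCoprime (p : ℤ) (n' : ℤ) := Nat.isCoprime_iff_coprime.mpr hcop
      obtain ⟨a, b, hab⟩ := hc
      have h3 : ((a : O) * (p : O) + (b : O) * (n' : O)) = 1 := by
        exact_mod_cast congrArg (Int.cast : ℤ → O) hab
      rw [← h3]
      exact Ideal.add_mem _ (Ideal.mul_mem_left _ _ hpQ) (Ideal.mul_mem_left _ _ h1)
    exact honeQ h2
  obtain ⟨c, s, G, hs, hG1, hG⟩ := local_lemma M p hpM hfrob e e F F' (C (n' : R)) he le_rfl hdvd hU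
  -- evaluation
  have hevF : ∀ z : O, eval₂ ι z F = ev h (κ * z) := by
    intro z
    have : eval₂ ι z F = (eval₂RingHom ι z) F := rfl
    rw [this]
    change (eval₂RingHom ι z) (ev h x) = _
    rw [map_ev]
    congr 1
    simp [x, κ', hι]
  have hrel : ∀ z : O, z ^ p = 1 → (s : O) * ev h (κ * z) = (p : O) ^ c * eval₂ ι z G := by
    intro z hz
    obtain ⟨W, hW⟩ := hG
    have := congrArg (eval₂ ι z) hW
    simp only [eval₂_sub, eval₂_mul, eval₂_C, eval₂_pow, eval₂_X, eval₂_one, hz, sub_self,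
      zero_mul, hevF] at this
    rw [sub_eq_zero] at this
    rw [map_pow, map_natCast] at this
    exact this
  have hG1' : eval₂ ι 1 G = ((G.eval 1 : R) : O) := by
    have := Polynomial.eval₂_at_apply (p := G) ι 1
    rw [map_one] at this
    exact this
  have hs0 : (s : O) ≠ 0 := by
    intro h0
    apply hs
    rw [Ideal.mem_comap, hι, h0]
    exact Q.zero_mem
  have haQ : eval₂ ι 1 G ∉ Q := by
    rw [hG1']
    exact hG1
  have hξQ : ξ - 1 ∈ Q := by
    obtain ⟨r, hr⟩ := exists_add_pow_prime_eq hpp (ξ - 1) 1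
    rw [sub_add_cancel, hξ, one_pow] at hr
    have h1 : (ξ - 1) ^ p = -((p : O) * ((ξ - 1) * 1 * r)) := by
      linear_combination -hr
    have h2 : (ξ - 1) ^ p ∈ Q := by
      rw [h1]
      exact Q.neg_mem (Ideal.mul_mem_right _ _ hpQ)
    exact ‹Q.IsPrime›.mem_of_pow_mem p h2
  have hab : eval₂ ι 1 G - eval₂ ι ξ G ∈ Q := by
    have h1 : (ξ - 1) ∣ eval₂ ι ξ G - eval₂ ι 1 G := by
      rw [eval₂_eq_eval_map, eval₂_eq_eval_map]
      exact Polynomial.sub_dvd_eval_sub _ _ _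
    obtain ⟨w, hw⟩ := h1
    have h2 : eval₂ ι 1 G - eval₂ ι ξ G = (ξ - 1) * (-w) := by
      linear_combination -hw
    rw [h2]
    exact Ideal.mul_mem_right _ _ hξQ
  refine ⟨eval₂ ι 1 G, eval₂ ι ξ G, haQ, ?_, hab, ?_⟩
  · intro hb
    apply haQ
    have := Q.add_mem hab hb
    rwa [sub_add_cancel] at this
  · apply mul_left_cancel₀ hs0
    have r1 := hrel ξ hξ
    have r2 := hrel 1 (one_pow _)
    rw [mul_one] at r2
    calc (s : O) * (ev h (κ * ξ) * eval₂ ι 1 G) = ((s : O) * ev h (κ * ξ)) * eval₂ ι 1 G := by ring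
      _ = eval₂ ι ξ G * ((p : O) ^ c * eval₂ ι 1 G) := by rw [r1]; ring
      _ = _ := by rw [← r2]; ring

end Crest.Agent.R44
end

-- ▼ part R44/Global
section

set_option autoImplicit false

open NumberField

namespace Crest.Agent.R44

/-- `x` and `y` are associated up to units `≡` each other modulo `Q`. -/
def Rel {O : Type*} [CommRing O] (Q : Ideal O) (x y : O) : Prop :=
  ∃ a b : O, a ∉ Q ∧ b ∉ Q ∧ a - b ∈ Q ∧ x * a = y * b

theorem Rel.symm {O : Type*} [CommRing O] {Q : Ideal O} {x y : O} (h : Rel Q x y) : Rel Q y x := by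
  obtain ⟨a, b, ha, hb, hab, h⟩ := h
  refine ⟨b, a, hb, ha, ?_, h.symm⟩
  have := Q.neg_mem hab
  rwa [neg_sub] at this

theorem Rel.mul {O : Type*} [CommRing O] {Q : Ideal O} [Q.IsPrime] {x y x' y' : O}
    (h : Rel Q x y) (h' : Rel Q x' y') : Rel Q (x * x') (y * y') := by
  obtain ⟨a, b, ha, hb, hab, h⟩ := h
  obtain ⟨a', b', ha', hb', hab', h'⟩ := h'
  refine ⟨a * a', b * b', ?_, ?_, ?_, ?_⟩
  · exact fun hh => ((inferInstance : Q.IsPrime).mem_or_mem hh).elim ha ha'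
  · exact fun hh => ((inferInstance : Q.IsPrime).mem_or_mem hh).elim hb hb'
  · have : a * a' - b * b' = (a - b) * a' + (a' - b') * b := by ring
    rw [this]
    exact Q.add_mem (Q.mul_mem_right _ hab) (Q.mul_mem_right _ hab')
  · calc x * x' * (a * a') = (x * a) * (x' * a') := by ring
      _ = y * y' * (b * b') := by rw [h, h']; ring

theorem Rel.prod {O : Type*} [CommRing O] {Q : Ideal O} [Q.IsPrime] {ι : Type*} (S : Finset ι)
    (f g : ι → O) (h : ∀ T ∈ S, Rel Q (f T) (g T)) : Rel Q (∏ T ∈ S, f T) (∏ T ∈ S, g T) := by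
  classical
  induction S using Finset.induction_on with
  | empty =>
    have h1 : (1 : O) ∉ Q := fun hh => (inferInstance : Q.IsPrime).ne_top ((Ideal.eq_top_iff_one Q).2 hh)
    exact ⟨1, 1, h1, h1, by simp, by simp⟩
  | insert a s ha ih =>
    rw [Finset.prod_insert ha, Finset.prod_insert ha]
    exact (h a (Finset.mem_insert_self _ _)).mul (ih fun T hT => h T (Finset.mem_insert_of_mem hT))

theorem prod_even {O : Type*} [CommRing O] (P : Finset ℕ) (p : ℕ) (hp : p ∈ P)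
    (f : Finset ℕ → O) :
    (∏ T ∈ P.powerset with Even T.card, f T) =
      ∏ T ∈ (P.erase p).powerset, (if Even T.card then f T else f (insert p T)) := by
  rw [Finset.prod_filter, ← Finset.insert_erase hp, Finset.prod_powerset_insert (by simp),
    Finset.insert_erase hp, ← Finset.prod_mul_distrib]
  refine Finset.prod_congr rfl fun T hT => ?_
  have hpT : p ∉ T := fun h => by simpa using Finset.mem_powerset.1 hT h
  rw [Finset.card_insert_of_notMem hpT]
  by_cases hE : Even T.card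
  · have : ¬ Even (T.card + 1) := by rw [Nat.even_add_one]; simpa using hE
    simp [hE, this]
  · have : Even (T.card + 1) := by rw [Nat.even_add_one]; exact hE
    simp [hE, this]

theorem prod_odd {O : Type*} [CommRing O] (P : Finset ℕ) (p : ℕ) (hp : p ∈ P)
    (f : Finset ℕ → O) :
    (∏ T ∈ P.powerset with ¬ Even T.card, f T) =
      ∏ T ∈ (P.erase p).powerset, (if Even T.card then f (insert p T) else f T) := by
  rw [Finset.prod_filter, ← Finset.insert_erase hp, Finset.prod_powerset_insert (by simp),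
    Finset.insert_erase hp, ← Finset.prod_mul_distrib]
  refine Finset.prod_congr rfl fun T hT => ?_
  have hpT : p ∉ T := fun h => by simpa using Finset.mem_powerset.1 hT h
  rw [Finset.card_insert_of_notMem hpT]
  by_cases hE : Even T.card
  · have : ¬ Even (T.card + 1) := by rw [Nat.even_add_one]; simpa using hE
    simp [hE, this]
  · have : Even (T.card + 1) := by rw [Nat.even_add_one]; exact hE
    simp [hE, this]

theorem exists_prime_over (K : Type*) [Field K] [NumberField K] (p : ℕ) (hp : p.Prime) :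
    ∃ Q : Ideal (𝓞 K), Q.IsPrime ∧ (p : 𝓞 K) ∈ Q := by
  have : (Ideal.span {(p : ℤ)}).IsPrime := by
    rw [Ideal.span_singleton_prime (by exact_mod_cast hp.ne_zero)]
    exact Nat.prime_iff_prime_int.1 hp
  obtain ⟨Q, -, hQ, hQ'⟩ := Ideal.exists_ideal_over_prime_of_isIntegral (S := 𝓞 K)
    (Ideal.span {(p : ℤ)}) ⊥ (by
      rw [← RingHom.ker_eq_comap_bot, (RingHom.injective_iff_ker_eq_bot _).1
        (FaithfulSMul.algebraMap_injective ℤ (𝓞 K))]
      exact bot_le)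
  refine ⟨Q, hQ, ?_⟩
  have : (p : ℤ) ∈ Q.comap (algebraMap ℤ (𝓞 K)) := by
    rw [hQ']; exact Ideal.mem_span_singleton_self _
  simpa using Ideal.mem_comap.1 this

/-- A root of unity which is `1` modulo a prime above an odd `p` and modulo a prime above `2`
is `1`. -/
theorem root_of_unity_eq_one {O : Type*} [CommRing O] [IsDomain O] [CharZero O]
    (η : O) (N : ℕ) (hN : 0 < N) (hη : η ^ N = 1) (p : ℕ) (hpp : p.Prime) (hp2 : p ≠ 2)
    (Q Q₂ : Ideal O) [Q.IsPrime] [Q₂.IsPrime] (hQ : (p : O) ∈ Q) (hQ₂ : (2 : O) ∈ Q₂)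
    (h1 : η - 1 ∈ Q) (h2 : η - 1 ∈ Q₂) : η = 1 := by
  by_contra hne
  have hfin : IsOfFinOrder η := isOfFinOrder_iff_pow_eq_one.2 ⟨N, hN, hη⟩
  have hm : orderOf η ≠ 1 := fun h => hne (orderOf_eq_one_iff.1 h)
  obtain ⟨q, hq, hqd⟩ := Nat.exists_prime_and_dvd hm
  obtain ⟨k, hk⟩ := hqd
  have hmpos : 0 < orderOf η := hfin.orderOf_pos
  have hprim : IsPrimitiveRoot η (orderOf η) := IsPrimitiveRoot.orderOf η
  have hprim' : IsPrimitiveRoot (η ^ k) q := hprim.pow hmpos (by rw [hk, mul_comm])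
  have hsum := hprim'.geom_sum_eq_zero hq.one_lt
  have key : ∀ J : Ideal O, η - 1 ∈ J → (q : O) ∈ J := by
    intro J hJ
    have h3 : ∀ i ∈ Finset.range q, Ideal.Quotient.mk J ((η ^ k) ^ i) = 1 := by
      intro i _
      have : Ideal.Quotient.mk J η = 1 := by
        rw [← sub_eq_zero, ← map_one (Ideal.Quotient.mk J), ← map_sub]
        exact Ideal.Quotient.eq_zero_iff_mem.2 hJ
      rw [map_pow, map_pow, this]; simp
    have h4 : Ideal.Quotient.mk J (∑ i ∈ Finset.range q, (η ^ k) ^ i) = (q : O ⧸ J) := by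
      rw [map_sum, Finset.sum_congr rfl h3]; simp
    rw [hsum, map_zero] at h4
    rw [← Ideal.Quotient.eq_zero_iff_mem, map_natCast]
    exact h4.symm
  have aux : ∀ (J : Ideal O) [J.IsPrime] (a b : ℕ), a.Prime → b.Prime → (a : O) ∈ J → (b : O) ∈ J →
      a = b := by
    intro J hJp a b ha hb haJ hbJ
    by_contra hab
    have hcop : Nat.Coprime a b := (Nat.coprime_primes ha hb).2 hab
    have hcop' : IsCoprime (a : ℤ) (b : ℤ) := Nat.isCoprime_iff_coprime.2 hcop
    obtain ⟨x, y, hxy⟩ := hcop'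
    have : (1 : O) ∈ J := by
      have h5 : (x : O) * (a : O) + (y : O) * (b : O) = 1 := by exact_mod_cast congrArg (Int.cast : ℤ → O) hxy
      rw [← h5]
      exact J.add_mem (J.mul_mem_left _ haJ) (J.mul_mem_left _ hbJ)
    exact hJp.ne_top ((Ideal.eq_top_iff_one J).2 this)
  have e1 := aux Q p q hpp hq hQ (key Q h1)
  have e2 := aux Q₂ 2 q Nat.prime_two hq (by exact_mod_cast hQ₂) (key Q₂ h2)
  exact hp2 (e1.trans e2.symm)


/-- Step 4: the alternating product identity (for ratios). The sum over subsets `T ⊆ P` is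
indexed by `P.powerset`, split by the parity of `T.card`. -/
theorem global_step {K : Type*} [Field K] [NumberField K] (P : Finset ℕ) (hne : P.Nonempty)
    (hprime : ∀ p ∈ P, p.Prime) (hodd : ∀ p ∈ P, p ≠ 2)
    (u : ℕ) (hu : ∀ p, p.Prime → p ∣ u → p ∈ P) (hu0 : u ≠ 0) (huodd : Odd u)
    (α β : Finset ℕ → 𝓞 K)
    (hα : ∀ T, T ⊆ P → ∃ α' : 𝓞 K, α T * α' = (u : 𝓞 K) ^ 2)
    (hβ : ∀ T, T ⊆ P → ∃ β' : 𝓞 K, β T * β' = (u : 𝓞 K) ^ 2)
    (hαn : ∀ T, T ⊆ P → ∀ φ : K →+* ℂ, ‖φ (α T : K)‖ = u)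
    (hβn : ∀ T, T ⊆ P → ∀ φ : K →+* ℂ, ‖φ (β T : K)‖ = u)
    (hαloc : ∀ p ∈ P, ∀ Q : Ideal (𝓞 K), Q.IsPrime → (p : 𝓞 K) ∈ Q → ∀ T, T ⊆ P → p ∉ T →
      ∃ a b : 𝓞 K, a ∉ Q ∧ b ∉ Q ∧ a - b ∈ Q ∧ α (insert p T) * a = α T * b)
    (hβloc : ∀ p ∈ P, ∀ Q : Ideal (𝓞 K), Q.IsPrime → (p : 𝓞 K) ∈ Q → ∀ T, T ⊆ P → p ∉ T →
      ∃ a b : 𝓞 K, a ∉ Q ∧ b ∉ Q ∧ a - b ∈ Q ∧ β (insert p T) * a = β T * b)
    (hcong : ∀ Q : Ideal (𝓞 K), Q.IsPrime → (2 : 𝓞 K) ∈ Q → ∀ T, T ⊆ P → β T - α T ∈ Q) :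
    (∏ T ∈ P.powerset with Even T.card, β T) * (∏ T ∈ P.powerset with ¬ Even T.card, α T)
      = (∏ T ∈ P.powerset with Even T.card, α T) *
        (∏ T ∈ P.powerset with ¬ Even T.card, β T) := by
  classical
  set L := (∏ T ∈ P.powerset with Even T.card, β T) * (∏ T ∈ P.powerset with ¬ Even T.card, α T)
    with hL
  set R := (∏ T ∈ P.powerset with Even T.card, α T) * (∏ T ∈ P.powerset with ¬ Even T.card, β T)
    with hR
  -- pairing at the primes above `p ∈ P`
  have hrel : ∀ p ∈ P, ∀ Q : Ideal (𝓞 K), Q.IsPrime → (p : 𝓞 K) ∈ Q → Rel Q L R := by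
    intro p hp Q hQ hpQ
    rw [hL, hR, prod_even P p hp, prod_odd P p hp, prod_even P p hp, prod_odd P p hp,
      ← Finset.prod_mul_distrib, ← Finset.prod_mul_distrib]
    refine Rel.prod _ _ _ fun T hT => ?_
    have hTP : T ⊆ P := (Finset.mem_powerset.1 hT).trans (Finset.erase_subset _ _)
    have hpT : p ∉ T := fun h => by simpa using Finset.mem_powerset.1 hT h
    have h1 : Rel Q (α (insert p T)) (α T) := hαloc p hp Q hQ hpQ T hTP hpT
    have h2 : Rel Q (β (insert p T)) (β T) := hβloc p hp Q hQ hpQ T hTP hpT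
    split_ifs with hE
    · have := h2.symm.mul h1
      rwa [mul_comm (β (insert p T)) (α T)] at this
    · have := h2.mul h1.symm
      rwa [mul_comm (β T) (α (insert p T))] at this
  -- nonvanishing modulo primes not above u
  have hnot : ∀ (Q : Ideal (𝓞 K)), Q.IsPrime → (u : 𝓞 K) ∉ Q → R ∉ Q := by
    intro Q hQ huQ
    have hα' : ∀ T, T ⊆ P → α T ∉ Q := by
      intro T hT h
      obtain ⟨a, ha⟩ := hα T hT
      exact huQ (hQ.mem_of_pow_mem 2 (by rw [← ha]; exact Q.mul_mem_right _ h))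
    have hβ' : ∀ T, T ⊆ P → β T ∉ Q := by
      intro T hT h
      obtain ⟨a, ha⟩ := hβ T hT
      exact huQ (hQ.mem_of_pow_mem 2 (by rw [← ha]; exact Q.mul_mem_right _ h))
    intro h
    rcases hQ.mem_or_mem h with h | h
    · obtain ⟨T, hT, hT'⟩ := (hQ.prod_mem_iff).1 h
      exact hα' T (Finset.mem_powerset.1 (Finset.mem_filter.1 hT).1) hT'
    · obtain ⟨T, hT, hT'⟩ := (hQ.prod_mem_iff).1 h
      exact hβ' T (Finset.mem_powerset.1 (Finset.mem_filter.1 hT).1) hT'
  -- `R` divides `L`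
  have hdvd : R ∣ L := by
    let J : Ideal (𝓞 K) := Submodule.comap (LinearMap.mulLeft (𝓞 K) L) (Ideal.span {R})
    have hmem : ∀ a, a ∈ J ↔ R ∣ L * a := by
      intro a
      simp only [J, Submodule.mem_comap, LinearMap.mulLeft_apply]
      exact Ideal.mem_span_singleton
    have hJ : J = ⊤ := by
      by_contra hJ
      obtain ⟨Q, hQm, hJQ⟩ := Ideal.exists_le_maximal J hJ
      have hQ : Q.IsPrime := hQm.isPrime
      by_cases huQ : (u : 𝓞 K) ∈ Q
      · -- some prime factor of u is in Q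
        have : ∃ p, p.Prime ∧ p ∣ u ∧ (p : 𝓞 K) ∈ Q := by
          have h1 : ((u.primeFactorsList.prod : ℕ) : 𝓞 K) ∈ Q := by
            rw [Nat.prod_primeFactorsList hu0]; exact huQ
          rw [Nat.cast_list_prod] at h1
          obtain ⟨x, hx, hxQ⟩ := (hQ.multiset_prod_mem_iff_exists_mem
            ((u.primeFactorsList.map (Nat.cast : ℕ → 𝓞 K) : List (𝓞 K)) : Multiset (𝓞 K))).1 (by simpa using h1)
          obtain ⟨p, hp, rfl⟩ := List.mem_map.1 (Multiset.mem_coe.1 hx)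
          exact ⟨p, Nat.prime_of_mem_primeFactorsList hp, Nat.dvd_of_mem_primeFactorsList hp, hxQ⟩
        obtain ⟨p, hp, hpu, hpQ⟩ := this
        obtain ⟨a, b, ha, hb, hab, h⟩ := hrel p (hu p hp hpu) Q hQ hpQ
        exact ha (hJQ ((hmem a).2 ⟨b, h⟩))
      · exact hnot Q hQ huQ (hJQ ((hmem R).2 (Dvd.intro_left L rfl)))
    have := (hmem 1).1 (by rw [hJ]; trivial)
    rwa [mul_one] at this
  obtain ⟨η, hη⟩ := hdvd
  -- `R ≠ 0`
  have hcoe : ∀ (S : Finset (Finset ℕ)) (f : Finset ℕ → 𝓞 K) (φ : K →+* ℂ),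
      ‖φ ((∏ T ∈ S, f T : 𝓞 K) : K)‖ = ∏ T ∈ S, ‖φ (f T : K)‖ := by
    intro S f φ
    rw [show ((∏ T ∈ S, f T : 𝓞 K) : K) = ∏ T ∈ S, (f T : K) from
      map_prod (algebraMap (𝓞 K) K) f S, map_prod, norm_prod]
  have hmulc : ∀ (x y : 𝓞 K) (φ : K →+* ℂ),
      ‖φ ((x * y : 𝓞 K) : K)‖ = ‖φ (x : K)‖ * ‖φ (y : K)‖ := by
    intro x y φ
    rw [show ((x * y : 𝓞 K) : K) = (x : K) * (y : K) from
      map_mul (algebraMap (𝓞 K) K) x y, map_mul, norm_mul]
  have hnL : ∀ φ : K →+* ℂ, ‖φ (L : K)‖ = (u : ℝ) ^ (P.powerset.card) := by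
    intro φ
    rw [hL, hmulc, hcoe, hcoe,
      Finset.prod_congr rfl (fun T hT => hβn T (Finset.mem_powerset.1 (Finset.mem_filter.1 hT).1) φ),
      Finset.prod_congr rfl (fun T hT => hαn T (Finset.mem_powerset.1 (Finset.mem_filter.1 hT).1) φ),
      Finset.prod_const, Finset.prod_const, ← pow_add,
      Finset.card_filter_add_card_filter_not]
  have hnR : ∀ φ : K →+* ℂ, ‖φ (R : K)‖ = (u : ℝ) ^ (P.powerset.card) := by
    intro φ
    rw [hR, hmulc, hcoe, hcoe,
      Finset.prod_congr rfl (fun T hT => hβn T (Finset.mem_powerset.1 (Finset.mem_filter.1 hT).1) φ),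
      Finset.prod_congr rfl (fun T hT => hαn T (Finset.mem_powerset.1 (Finset.mem_filter.1 hT).1) φ),
      Finset.prod_const, Finset.prod_const, ← pow_add,
      Finset.card_filter_add_card_filter_not]
  have hu0' : (u : ℝ) ^ (P.powerset.card) ≠ 0 := pow_ne_zero _ (by exact_mod_cast hu0)
  have hR0 : R ≠ 0 := by
    intro h
    obtain ⟨φ⟩ : Nonempty (K →+* ℂ) := inferInstance
    have := hnR φ
    rw [h, show ((0 : 𝓞 K) : K) = 0 from map_zero (algebraMap (𝓞 K) K), map_zero,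
      norm_zero] at this
    exact hu0' this.symm
  -- `η` is a root of unity
  have hηn : ∀ φ : K →+* ℂ, ‖φ (η : K)‖ = 1 := by
    intro φ
    have h := hnL φ
    rw [hη, hmulc, hnR φ] at h
    exact mul_left_cancel₀ hu0' (by rw [h, mul_one])
  obtain ⟨N, hN, hηN⟩ := NumberField.Embeddings.pow_eq_one_of_norm_eq_one K ℂ
    (RingOfIntegers.isIntegral_coe η) hηn
  have hηN' : η ^ N = 1 := by
    apply FaithfulSMul.algebraMap_injective (𝓞 K) K
    rw [map_pow, map_one]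
    exact hηN
  obtain ⟨p, hp⟩ := hne
  obtain ⟨Q, hQ, hpQ⟩ := exists_prime_over K p (hprime p hp)
  obtain ⟨Q₂, hQ₂, h2Q⟩ := exists_prime_over K 2 Nat.prime_two
  have h2Q' : (2 : 𝓞 K) ∈ Q₂ := by exact_mod_cast h2Q
  have h1 : η - 1 ∈ Q := by
    obtain ⟨a, b, ha, hb, hab, h⟩ := hrel p hp Q hQ hpQ
    rw [hη, mul_assoc] at h
    have h' := mul_left_cancel₀ hR0 h
    have : (η - 1) * a ∈ Q := by
      have h3 : (η - 1) * a = -(a - b) := by rw [sub_mul, h']; ring
      rw [h3]; exact Q.neg_mem hab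
    exact (hQ.mem_or_mem this).resolve_right ha
  have h2 : η - 1 ∈ Q₂ := by
    have huQ : (u : 𝓞 K) ∉ Q₂ := by
      intro h
      obtain ⟨k, hk⟩ := huodd
      apply hQ₂.ne_top
      rw [Ideal.eq_top_iff_one]
      have : (1 : 𝓞 K) = (u : 𝓞 K) - 2 * (k : 𝓞 K) := by rw [hk]; push_cast; ring
      rw [this]
      exact Q₂.sub_mem h (Q₂.mul_mem_right _ h2Q')
    have hRQ := hnot Q₂ hQ₂ huQ
    have hLR : L - R ∈ Q₂ := by
      rw [← Ideal.Quotient.eq_zero_iff_mem, map_sub, sub_eq_zero, hL, hR, map_mul, map_mul,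
        map_prod, map_prod, map_prod, map_prod]
      have e : ∀ T, T ⊆ P → Ideal.Quotient.mk Q₂ (β T) = Ideal.Quotient.mk Q₂ (α T) := by
        intro T hT
        rw [← sub_eq_zero, ← map_sub]
        exact Ideal.Quotient.eq_zero_iff_mem.2 (hcong Q₂ hQ₂ h2Q' T hT)
      congr 1
      · exact Finset.prod_congr rfl (fun T hT => e T (Finset.mem_powerset.1 (Finset.mem_filter.1 hT).1))
      · exact Finset.prod_congr rfl (fun T hT => (e T (Finset.mem_powerset.1 (Finset.mem_filter.1 hT).1)).symm)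
    have : R * (η - 1) ∈ Q₂ := by rw [mul_sub, ← hη, mul_one]; exact hLR
    exact (hQ₂.mem_or_mem this).resolve_left hRQ
  have := root_of_unity_eq_one η N hN hηN' p (hprime p hp) (hodd p hp) Q Q₂ hpQ h2Q' h1 h2
  rw [hη, this, mul_one]

end Crest.Agent.R44
end

-- ▼ part R44/ParityRel
section

set_option autoImplicit false

namespace Crest.Agent.R44

theorem ev_eq_range {n : ℕ} [NeZero n] {A : Type*} [CommRing A] (h : ZMod n → ℤ) (x : A) :
    ev h x = ∑ k ∈ Finset.range n, (h (k : ZMod n) : A) * x ^ k := by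
  unfold ev
  symm
  refine Finset.sum_bij (fun k _ => (k : ZMod n)) (fun _ _ => Finset.mem_univ _) ?_ ?_ ?_
  · intro a ha b hb hab
    rw [Finset.mem_range] at ha hb
    have := (ZMod.natCast_eq_natCast_iff' a b n).1 hab
    rwa [Nat.mod_eq_of_lt ha, Nat.mod_eq_of_lt hb] at this
  · intro b _
    exact ⟨b.val, Finset.mem_range.2 (ZMod.val_lt b), ZMod.natCast_zmod_val b⟩
  · intro a ha
    rw [Finset.mem_range] at ha
    rw [ZMod.val_natCast, Nat.mod_eq_of_lt ha]

theorem sum_range_two_mul {A : Type*} [AddCommMonoid A] (f : ℕ → A) (m : ℕ) :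
    ∑ k ∈ Finset.range (2 * m), f k = ∑ j ∈ Finset.range m, (f (2 * j) + f (2 * j + 1)) := by
  induction m with
  | zero => simp
  | succ m ih =>
    rw [show 2 * (m + 1) = 2 * m + 1 + 1 by ring, Finset.sum_range_succ, Finset.sum_range_succ,
      Finset.sum_range_succ, ih, add_assoc]

theorem ev_split {u : ℕ} [NeZero (4 * u ^ 2)] {A : Type*} [CommRing A]
    (h : ZMod (4 * u ^ 2) → ℤ) (x : A) :
    ev h x = ∑ j ∈ Finset.range (u ^ 2),
      ((((h ((2 * j : ℕ) : ZMod (4 * u ^ 2)) : ℤ) : A)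
          + x ^ (2 * u ^ 2) * ((h ((2 * j + 2 * u ^ 2 : ℕ) : ZMod (4 * u ^ 2)) : ℤ) : A)) * x ^ (2 * j)
        + (((h ((2 * j + 1 : ℕ) : ZMod (4 * u ^ 2)) : ℤ) : A)
          + x ^ (2 * u ^ 2) * ((h ((2 * j + 1 + 2 * u ^ 2 : ℕ) : ZMod (4 * u ^ 2)) : ℤ) : A))
            * x ^ (2 * j + 1)) := by
  rw [ev_eq_range]
  have h1 : ∑ k ∈ Finset.range (4 * u ^ 2), (h (k : ZMod (4 * u ^ 2)) : A) * x ^ k
      = ∑ k ∈ Finset.range (2 * u ^ 2 + 2 * u ^ 2), (h (k : ZMod (4 * u ^ 2)) : A) * x ^ k := by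
    congr 2; ring
  rw [h1, Finset.sum_range_add, ← Finset.sum_add_distrib, sum_range_two_mul]
  refine Finset.sum_congr rfl (fun j _ => ?_)
  have e1 : 2 * u ^ 2 + 2 * j = 2 * j + 2 * u ^ 2 := by ring
  have e2 : 2 * u ^ 2 + (2 * j + 1) = 2 * j + 1 + 2 * u ^ 2 := by ring
  rw [e1, e2]
  ring

/-- Step 5 (concrete part): parity relations between `H(ξ)/2`, `H(-ξ)/2`, `H(Iξ)/2`. -/
theorem parity_rel {O : Type*} [CommRing O] [IsDomain O] (u : ℕ) (hu : Odd u)
    [NeZero (4 * u ^ 2)] (h : ZMod (4 * u ^ 2) → ℤ) (hpm : ∀ j, h j = 1 ∨ h j = -1)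
    (I ξ : O) (hI : I ^ 2 = -1) (hξ : ξ ^ (u ^ 2) = 1) [Decidable (ξ = 1)] :
    ∃ α τ ρ : O, ev h ξ = 2 * α ∧ ev h (-ξ) = 2 * (α - 2 * τ) ∧
      ev h (I * ξ) = 2 * (α + (1 + I) * (τ + if ξ = 1 then 1 else 0) + 2 * ρ) := by
  classical
  -- the integers `P_k`, `M_k`
  have hPM : ∀ k : ℕ, ∃ P M : ℤ,
      h (k : ZMod (4 * u ^ 2)) + h ((k + 2 * u ^ 2 : ℕ) : ZMod (4 * u ^ 2)) = 2 * P ∧
      h (k : ZMod (4 * u ^ 2)) - h ((k + 2 * u ^ 2 : ℕ) : ZMod (4 * u ^ 2)) = 2 * M ∧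
      ∃ c : ℤ, M = P + 1 + 2 * c := by
    intro k
    rcases hpm (k : ZMod (4 * u ^ 2)) with h1 | h1 <;>
      rcases hpm ((k + 2 * u ^ 2 : ℕ) : ZMod (4 * u ^ 2)) with h2 | h2
    · exact ⟨1, 0, by rw [h1, h2]; norm_num, by rw [h1, h2]; norm_num, -1, by norm_num⟩
    · exact ⟨0, 1, by rw [h1, h2]; norm_num, by rw [h1, h2]; norm_num, 0, by norm_num⟩
    · exact ⟨0, -1, by rw [h1, h2]; norm_num, by rw [h1, h2]; norm_num, -1, by norm_num⟩
    · exact ⟨-1, 0, by rw [h1, h2]; norm_num, by rw [h1, h2]; norm_num, 0, by norm_num⟩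
  choose P M hP hM c hc using hPM
  have hu2 : Odd (u ^ 2) := hu.pow
  have hξ2 : ξ ^ (2 * u ^ 2) = 1 := by rw [mul_comm, pow_mul, hξ, one_pow]
  have hmξ2 : (-ξ) ^ (2 * u ^ 2) = 1 := by
    rw [pow_mul, neg_sq, ← pow_mul, hξ2]
  have hIξ2 : (I * ξ) ^ (2 * u ^ 2) = -1 := by
    rw [mul_pow, hξ2, pow_mul, hI, hu2.neg_one_pow, mul_one]
  have cP : ∀ k : ℕ, ((h (k : ZMod (4 * u ^ 2)) : ℤ) : O)
      + ((h ((k + 2 * u ^ 2 : ℕ) : ZMod (4 * u ^ 2)) : ℤ) : O) = 2 * (P k : O) := by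
    intro k
    have := congrArg (fun z : ℤ => (z : O)) (hP k)
    push_cast at this ⊢
    exact this
  have cM : ∀ k : ℕ, ((h (k : ZMod (4 * u ^ 2)) : ℤ) : O)
      - ((h ((k + 2 * u ^ 2 : ℕ) : ZMod (4 * u ^ 2)) : ℤ) : O) = 2 * (M k : O) := by
    intro k
    have := congrArg (fun z : ℤ => (z : O)) (hM k)
    push_cast at this ⊢
    exact this
  have cc : ∀ k : ℕ, (M k : O) = P k + 1 + 2 * (c k : O) := by
    intro k
    have := congrArg (fun z : ℤ => (z : O)) (hc k)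
    push_cast at this
    exact this
  -- the geometric sum
  have hgeo : ∃ g : O, ∑ j ∈ Finset.range (u ^ 2), (ξ ^ (2 * j) + I * ξ ^ (2 * j + 1))
      = (1 + I) * (if ξ = 1 then 1 else 0) + 2 * g := by
    by_cases h1 : ξ = 1
    · obtain ⟨m, hm⟩ := hu2
      refine ⟨(1 + I) * m, ?_⟩
      rw [if_pos h1, h1]
      simp only [one_pow, mul_one, Finset.sum_const, Finset.card_range, nsmul_eq_mul]
      rw [hm]; push_cast; ring
    · refine ⟨0, ?_⟩
      rw [if_neg h1]
      have hsq : ξ ^ 2 ≠ 1 := by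
        intro h2
        obtain ⟨m, hm⟩ := hu2
        apply h1
        rw [hm, pow_succ, pow_mul, h2, one_pow, one_mul] at hξ
        exact hξ
      have hs : ∑ j ∈ Finset.range (u ^ 2), (ξ ^ 2) ^ j = 0 := by
        have h3 := geom_sum_mul (ξ ^ 2) (u ^ 2)
        have h4 : (ξ ^ 2) ^ (u ^ 2) = 1 := by rw [← pow_mul, hξ2]
        rw [h4, sub_self] at h3
        rcases mul_eq_zero.1 h3 with h5 | h5
        · exact h5
        · exact absurd (sub_eq_zero.1 h5) hsq
      have : ∑ j ∈ Finset.range (u ^ 2), (ξ ^ (2 * j) + I * ξ ^ (2 * j + 1))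
          = (1 + I * ξ) * ∑ j ∈ Finset.range (u ^ 2), (ξ ^ 2) ^ j := by
        rw [Finset.mul_sum]
        refine Finset.sum_congr rfl (fun j _ => ?_)
        rw [pow_succ, pow_mul]; ring
      rw [this, hs]; ring
  obtain ⟨g, hg⟩ := hgeo
  -- `(-1)^j = 1 + 2 s_j`
  have hsgn : ∀ j : ℕ, ∃ s : O, (-1 : O) ^ j = 1 + 2 * s := by
    intro j
    rcases Nat.even_or_odd j with hj | hj
    · exact ⟨0, by rw [hj.neg_one_pow]; ring⟩
    · exact ⟨-1, by rw [hj.neg_one_pow]; ring⟩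
  choose s hs using hsgn
  refine ⟨∑ j ∈ Finset.range (u ^ 2), ((P (2 * j) : O) * ξ ^ (2 * j)
      + (P (2 * j + 1) : O) * ξ ^ (2 * j + 1)),
    ∑ j ∈ Finset.range (u ^ 2), (P (2 * j + 1) : O) * ξ ^ (2 * j + 1),
    ∑ j ∈ Finset.range (u ^ 2), ((c (2 * j) + s j * M (2 * j)) * ξ ^ (2 * j)
      + (I * (c (2 * j + 1) + s j * M (2 * j + 1)) - P (2 * j + 1)) * ξ ^ (2 * j + 1)) + g, ?_, ?_, ?_⟩
  · rw [ev_split, hξ2, Finset.mul_sum]
    refine Finset.sum_congr rfl (fun j _ => ?_)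
    rw [one_mul, one_mul, cP (2 * j), cP (2 * j + 1)]
    ring
  · rw [ev_split, hmξ2, Finset.mul_sum, ← Finset.sum_sub_distrib, Finset.mul_sum]
    refine Finset.sum_congr rfl (fun j _ => ?_)
    rw [one_mul, one_mul, cP (2 * j), cP (2 * j + 1)]
    have e1 : (-ξ) ^ (2 * j) = ξ ^ (2 * j) := by rw [pow_mul, neg_sq, ← pow_mul]
    have e2 : (-ξ) ^ (2 * j + 1) = - ξ ^ (2 * j + 1) := by
      rw [pow_succ, e1, pow_succ]; ring
    rw [e1, e2]
    ring
  · have key : ev h (I * ξ) = 2 * ∑ j ∈ Finset.range (u ^ 2),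
        ((-1) ^ j * ((M (2 * j) : O) * ξ ^ (2 * j) + I * (M (2 * j + 1) : O) * ξ ^ (2 * j + 1))) := by
      rw [ev_split, hIξ2, Finset.mul_sum]
      refine Finset.sum_congr rfl (fun j _ => ?_)
      have e0 : ∀ a b : O, a + -1 * b = a - b := fun a b => by ring
      rw [e0, e0, cM (2 * j), cM (2 * j + 1)]
      have e1 : (I * ξ) ^ (2 * j) = (-1) ^ j * ξ ^ (2 * j) := by rw [mul_pow, pow_mul, hI]
      have e2 : (I * ξ) ^ (2 * j + 1) = (-1) ^ j * I * ξ ^ (2 * j + 1) := by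
        rw [pow_succ, e1, pow_succ]; ring
      rw [e1, e2]
      ring
    rw [key]
    congr 1
    have expand : ∑ j ∈ Finset.range (u ^ 2),
        ((-1) ^ j * ((M (2 * j) : O) * ξ ^ (2 * j) + I * (M (2 * j + 1) : O) * ξ ^ (2 * j + 1)))
        = ∑ j ∈ Finset.range (u ^ 2), ((P (2 * j) : O) * ξ ^ (2 * j)
            + (P (2 * j + 1) : O) * ξ ^ (2 * j + 1))
          + (1 + I) * ∑ j ∈ Finset.range (u ^ 2), (P (2 * j + 1) : O) * ξ ^ (2 * j + 1)
          + ∑ j ∈ Finset.range (u ^ 2), (ξ ^ (2 * j) + I * ξ ^ (2 * j + 1))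
          + 2 * ∑ j ∈ Finset.range (u ^ 2), ((c (2 * j) + s j * M (2 * j)) * ξ ^ (2 * j)
            + (I * (c (2 * j + 1) + s j * M (2 * j + 1)) - P (2 * j + 1)) * ξ ^ (2 * j + 1)) := by
      rw [Finset.mul_sum, Finset.mul_sum, ← Finset.sum_add_distrib, ← Finset.sum_add_distrib,
        ← Finset.sum_add_distrib]
      refine Finset.sum_congr rfl (fun j _ => ?_)
      rw [hs j]
      linear_combination ξ ^ (2 * j) * cc (2 * j) + I * ξ ^ (2 * j + 1) * cc (2 * j + 1)
    rw [expand, hg]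
    ring

end Crest.Agent.R44
end

-- ▼ part R44/Parity
section

set_option autoImplicit false

namespace Crest.Agent.R44

/-- first order expansion of a product -/
theorem prod_expand {ι : Type*} [DecidableEq ι] {O : Type*} [CommRing O]
    (w : O) (f σ : ι → O) (S : Finset ι) :
    ∃ R : O, ∏ T ∈ S, (f T + w * σ T)
      = ∏ T ∈ S, f T + w * (∑ T ∈ S, σ T * ∏ T' ∈ S.erase T, f T') + w ^ 2 * R := by
  induction S using Finset.induction_on with
  | empty => exact ⟨0, by simp⟩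
  | insert a S ha ih =>
    obtain ⟨R, hR⟩ := ih
    have hsum : ∑ T ∈ insert a S, σ T * ∏ T' ∈ (insert a S).erase T, f T'
        = σ a * ∏ T' ∈ S, f T' + f a * ∑ T ∈ S, σ T * ∏ T' ∈ S.erase T, f T' := by
      rw [Finset.sum_insert ha, Finset.erase_insert ha, Finset.mul_sum]
      congr 1
      refine Finset.sum_congr rfl (fun T hT => ?_)
      have hTa : T ≠ a := fun h => ha (h ▸ hT)
      rw [Finset.erase_insert_of_ne hTa.symm, Finset.prod_insert]
      · ring
      · intro h; exact ha (Finset.mem_of_mem_erase h)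
    refine ⟨f a * R + σ a * (∑ T ∈ S, σ T * ∏ T' ∈ S.erase T, f T') + w * σ a * R, ?_⟩
    rw [Finset.prod_insert ha, hR, hsum, Finset.prod_insert ha]
    ring

/-- first order expansion of the identity `∏_E g ∏_D f = ∏_E f ∏_D g` with `g = f + w σ`. -/
theorem expand_step {ι : Type*} [DecidableEq ι] {O : Type*} [CommRing O] [IsDomain O]
    (w : O) (hw : w ≠ 0) (hw2 : w ∣ 2) (S : Finset ι) (q : ι → Prop) [DecidablePred q]
    (f g σ : ι → O) (hg : ∀ T ∈ S, g T = f T + w * σ T)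
    (hE : (∏ T ∈ S with q T, g T) * (∏ T ∈ S with ¬ q T, f T)
      = (∏ T ∈ S with q T, f T) * (∏ T ∈ S with ¬ q T, g T)) :
    w ∣ ∑ T ∈ S, σ T * ∏ T' ∈ S.erase T, f T' := by
  have hgq : ∏ T ∈ S with q T, g T = ∏ T ∈ S with q T, (f T + w * σ T) :=
    Finset.prod_congr rfl (fun T hT => hg T (Finset.mem_filter.1 hT).1)
  have hgn : ∏ T ∈ S with ¬ q T, g T = ∏ T ∈ S with ¬ q T, (f T + w * σ T) :=
    Finset.prod_congr rfl (fun T hT => hg T (Finset.mem_filter.1 hT).1)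
  obtain ⟨R1, hR1⟩ := prod_expand w f σ (S.filter q)
  obtain ⟨R2, hR2⟩ := prod_expand w f σ (S.filter (fun T => ¬ q T))
  rw [hgq, hgn, hR1, hR2] at hE
  set A := ∏ T ∈ S with q T, f T with hA
  set B := ∏ T ∈ S with ¬ q T, f T with hB
  set X := ∑ T ∈ S with q T, σ T * ∏ T' ∈ (S.filter q).erase T, f T' with hX
  set Y := ∑ T ∈ S with ¬ q T, σ T * ∏ T' ∈ (S.filter (fun T => ¬ q T)).erase T, f T' with hY
  have h1 : w * (X * B - A * Y) = w * (w * (A * R2 - R1 * B)) := by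
    linear_combination hE
  have h2 : X * B - A * Y = w * (A * R2 - R1 * B) := mul_left_cancel₀ hw h1
  have h3 : ∑ T ∈ S, σ T * ∏ T' ∈ S.erase T, f T' = X * B + A * Y := by
    rw [← Finset.sum_filter_add_sum_filter_not S q]
    congr 1
    · rw [hX, Finset.sum_mul]
      refine Finset.sum_congr rfl (fun T hT => ?_)
      rw [mul_assoc]
      congr 1
      rw [← Finset.prod_filter_mul_prod_filter_not (S.erase T) q]
      have hq := (Finset.mem_filter.1 hT).2
      congr 1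
      · rw [Finset.filter_erase]
      · rw [hB, Finset.filter_erase, Finset.erase_eq_of_notMem]
        intro h
        exact (Finset.mem_filter.1 h).2 hq
    · rw [hY, Finset.mul_sum]
      refine Finset.sum_congr rfl (fun T hT => ?_)
      rw [← Finset.prod_filter_mul_prod_filter_not (S.erase T) q]
      have hq := (Finset.mem_filter.1 hT).2
      have e1 : (S.erase T).filter q = S.filter q := by
        rw [Finset.filter_erase, Finset.erase_eq_of_notMem]
        intro h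
        exact hq (Finset.mem_filter.1 h).2
      rw [e1, Finset.filter_erase, ← hA]
      ring
  rw [h3]
  have h4 : X * B + A * Y = w * (A * R2 - R1 * B) + 2 * (A * Y) := by
    rw [← h2]; ring
  rw [h4]
  exact dvd_add (dvd_mul_right _ _) (hw2.mul_right _)

/-- Step 5 (abstract part). `T₀` is the empty set in the application. -/
theorem parity_step {ι : Type*} [DecidableEq ι] {O : Type*} [CommRing O] [IsDomain O]
    [CharZero O] (I : O) (hI : I ^ 2 = -1) (S : Finset ι) (q : ι → Prop) [DecidablePred q]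
    (T₀ : ι) (hT₀ : T₀ ∈ S) (α β γ τ ρ : ι → O)
    (hβ : ∀ T ∈ S, β T = α T - 2 * τ T)
    (hγ : ∀ T ∈ S, γ T = α T + (1 + I) * (τ T + if T = T₀ then 1 else 0) + 2 * ρ T)
    (hE1 : (∏ T ∈ S with q T, β T) * (∏ T ∈ S with ¬ q T, α T)
      = (∏ T ∈ S with q T, α T) * (∏ T ∈ S with ¬ q T, β T))
    (hE2 : (∏ T ∈ S with q T, γ T) * (∏ T ∈ S with ¬ q T, α T)
      = (∏ T ∈ S with q T, α T) * (∏ T ∈ S with ¬ q T, γ T)) :
    (1 + I) ∣ ∏ T ∈ S.erase T₀, α T := by
  have h2ne : (2 : O) ≠ 0 := two_ne_zero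
  have h12 : (1 + I) * (1 - I) = 2 := by linear_combination -hI
  have hw2 : (1 + I) ∣ (2 : O) := ⟨1 - I, h12.symm⟩
  have hwne : (1 + I) ≠ 0 := by
    intro h
    rw [h, zero_mul] at h12
    exact h2ne h12.symm
  have hwm : (1 + I) ∣ (1 - I) := ⟨-I, by linear_combination hI⟩
  have s1 := expand_step (2 : O) h2ne dvd_rfl S q α β (fun T => - τ T)
    (fun T hT => by rw [hβ T hT]; ring) hE1
  have s2 := expand_step (1 + I) hwne hw2 S q α γ
    (fun T => τ T + (if T = T₀ then 1 else 0) + (1 - I) * ρ T)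
    (fun T hT => by rw [hγ T hT]; linear_combination (- ρ T) * h12) hE2
  have e1 : ∑ T ∈ S, (τ T + (if T = T₀ then 1 else 0) + (1 - I) * ρ T) * ∏ T' ∈ S.erase T, α T'
      = - (∑ T ∈ S, (- τ T) * ∏ T' ∈ S.erase T, α T') + ∏ T ∈ S.erase T₀, α T
        + (1 - I) * ∑ T ∈ S, ρ T * ∏ T' ∈ S.erase T, α T' := by
    have : ∏ T ∈ S.erase T₀, α T = ∑ T ∈ S, (if T = T₀ then 1 else 0) * ∏ T' ∈ S.erase T, α T' := by
      rw [Finset.sum_eq_single T₀]
      · simp
      · intro b _ hb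
        simp [hb]
      · intro h; exact absurd hT₀ h
    rw [this, Finset.mul_sum, ← Finset.sum_neg_distrib, ← Finset.sum_add_distrib,
      ← Finset.sum_add_distrib]
    refine Finset.sum_congr rfl (fun T _ => ?_)
    ring
  rw [e1] at s2
  have s3 : (1 + I) ∣ (1 - I) * ∑ T ∈ S, ρ T * ∏ T' ∈ S.erase T, α T' := hwm.mul_right _
  have s4 : (1 + I) ∣ - (∑ T ∈ S, (- τ T) * ∏ T' ∈ S.erase T, α T') := (hw2.trans s1).neg_right
  have s5 := (dvd_add_left s3).1 s2
  exact (dvd_add_right s4).1 s5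

end Crest.Agent.R44
end

-- ▼ part R44/Turyn
section

set_option autoImplicit false

open Polynomial Finset

namespace Crest.Agent.R44

/-- Fold a function along an additive hom. -/
noncomputable def fold {A B : Type*} [AddCommGroup A] [Fintype A] [AddCommGroup B] [DecidableEq B]
    {R : Type*} [AddCommMonoid R] (π : A →+ B) (G : A → R) (i : B) : R :=
  ∑ j with π j = i, G j

theorem fold_corr {A B : Type*} [AddCommGroup A] [Fintype A] [AddCommGroup B] [Fintype B]
    [DecidableEq B] {R : Type*} [CommRing R] (π : A →+ B) (G : A → R) (l : B) :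
    ∑ i, fold π G (i + l) * fold π G i = ∑ t with π t = l, ∑ k, G (k + t) * G k := by
  classical
  have h1 : ∀ i, fold π G (i + l) * fold π G i =
      ∑ k, if π k = i then (∑ j, if π j = π k + l then G j * G k else 0) else 0 := by
    intro i
    unfold fold
    rw [Finset.sum_filter, Finset.sum_filter, Finset.mul_sum]
    refine Finset.sum_congr rfl fun k _ => ?_
    by_cases hk : π k = i
    · subst hk
      simp only [if_true, Finset.sum_mul]
      refine Finset.sum_congr rfl fun j _ => ?_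
      split_ifs <;> simp
    · simp [hk]
  simp_rw [h1]
  rw [Finset.sum_comm]
  have h2 : ∀ k, (∑ i, if π k = i then (∑ j, if π j = π k + l then G j * G k else 0) else 0)
      = ∑ j, if π j = π k + l then G j * G k else 0 := by
    intro k
    simp
  simp_rw [h2]
  rw [Finset.sum_filter]
  have h3 : ∀ t, (if π t = l then ∑ k, G (k + t) * G k else 0)
      = ∑ k, if π t = l then G (k + t) * G k else 0 := by
    intro t
    split_ifs <;> simp
  simp_rw [h3]
  rw [Finset.sum_comm (s := univ) (t := univ) (f := fun t k => if π t = l then G (k + t) * G k else 0)]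
  refine Finset.sum_congr rfl fun k _ => ?_
  refine (Fintype.sum_equiv (Equiv.addLeft k) _ _ fun t => ?_).symm
  simp only [Equiv.coe_addLeft, map_add, add_right_inj]

theorem turyn_pow_val_add {n : ℕ} [NeZero n] {A : Type*} [CommRing A] (x : A) (hx : x ^ n = 1)
    (a b : ZMod n) : x ^ (a + b).val = x ^ a.val * x ^ b.val := by
  rw [ZMod.val_add, ← pow_add, ← pow_eq_pow_mod _ hx]

theorem corr_expand {n : ℕ} [NeZero n] {A : Type*} [CommRing A] (x : A) (hx : x ^ n = 1)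
    (f g : ZMod n → A) :
    (∑ i, f i * x ^ i.val) * (∑ j, g (-j) * x ^ j.val)
      = ∑ l, (∑ j, f (j + l) * g j) * x ^ l.val := by
  have h1 : ∑ j, g (-j) * x ^ j.val = ∑ j, g j * x ^ (-j).val :=
    Fintype.sum_equiv (Equiv.neg _) _ _ fun j => by simp
  rw [h1]
  simp_rw [Finset.sum_mul, Finset.mul_sum]
  rw [Finset.sum_comm]
  rw [Finset.sum_comm (s := univ) (t := univ) (f := fun l j => f (j + l) * g j * x ^ l.val)]
  refine Finset.sum_congr rfl fun j _ => ?_
  refine (Fintype.sum_equiv (Equiv.addLeft j) _ _ fun l => ?_).symm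
  simp only [Equiv.coe_addLeft]
  have : x ^ l.val = x ^ (j + l).val * x ^ (-j).val := by
    rw [← turyn_pow_val_add x hx]; congr 2; ring
  rw [this]; ring

/-- polynomial attached to a function on `ZMod n` -/
noncomputable def polyOf {n : ℕ} [NeZero n] {K : Type*} [CommRing K] (f : ZMod n → K) : K[X] :=
  ∑ j, C (f j) * X ^ j.val

theorem polyOf_degree_lt {n : ℕ} [NeZero n] {K : Type*} [CommRing K] (f : ZMod n → K) :
    (polyOf f).degree < n := by
  unfold polyOf
  refine (Polynomial.degree_sum_le _ _).trans_lt ?_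
  rw [Finset.sup_lt_iff (by exact_mod_cast WithBot.bot_lt_coe n)]
  intro j _
  refine (Polynomial.degree_C_mul_X_pow_le _ _).trans_lt ?_
  exact_mod_cast ZMod.val_lt j

theorem polyOf_eq_zero {n : ℕ} [NeZero n] {K : Type*} [CommRing K] (f : ZMod n → K)
    (h : polyOf f = 0) (i : ZMod n) : f i = 0 := by
  have := congrArg (fun p => p.coeff i.val) h
  simp only [polyOf, finsetSum_coeff, coeff_C_mul, coeff_X_pow, coeff_zero] at this
  rw [Finset.sum_eq_single i] at this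
  · simpa using this
  · intro b _ hb
    rw [if_neg, mul_zero]
    intro hh
    exact hb (ZMod.val_injective n hh).symm
  · simp

theorem polyOf_eq_zero_of_dvd {n : ℕ} [NeZero n] {K : Type*} [Field K] (f : ZMod n → K)
    (h : (X ^ n - 1 : K[X]) ∣ polyOf f) (i : ZMod n) : f i = 0 := by
  refine polyOf_eq_zero f ?_ i
  refine Polynomial.eq_zero_of_dvd_of_degree_lt h ?_
  rw [show (X ^ n - 1 : K[X]) = X ^ n - C 1 by simp,
    Polynomial.degree_X_pow_sub_C (Nat.pos_of_ne_zero (NeZero.ne n))]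
  exact polyOf_degree_lt f

theorem polyOf_fold {n m : ℕ} [NeZero n] [NeZero m] (hmn : m ∣ n) {K : Type*} [CommRing K]
    (f : ZMod n → K) :
    (X ^ m - 1 : K[X]) ∣ polyOf f - polyOf (fold (ZMod.castHom hmn (ZMod m)).toAddMonoidHom f) := by
  have hval : ∀ j : ZMod n, ((ZMod.castHom hmn (ZMod m)) j).val = j.val % m := by
    intro j
    have : (ZMod.castHom hmn (ZMod m)) j = ((j.val : ℕ) : ZMod m) := by
      conv_lhs => rw [← ZMod.natCast_zmod_val j]
      rw [map_natCast]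
    rw [this, ZMod.val_natCast]
  have h1 : polyOf (fold (ZMod.castHom hmn (ZMod m)).toAddMonoidHom f)
      = ∑ j, C (f j) * X ^ (j.val % m) := by
    unfold polyOf fold
    simp_rw [map_sum, Finset.sum_mul]
    rw [← Finset.sum_fiberwise (s := univ) (g := fun j => (ZMod.castHom hmn (ZMod m)) j)
      (f := fun j => C (f j) * X ^ (j.val % m))]
    refine Finset.sum_congr rfl fun i _ => ?_
    refine Finset.sum_congr rfl fun j hj => ?_
    simp only [Finset.mem_filter, Finset.mem_univ, true_and] at hj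
    rw [← hval j]
    congr 3
    exact hj.symm
  rw [h1]
  unfold polyOf
  rw [← Finset.sum_sub_distrib]
  refine Finset.dvd_sum fun j _ => ?_
  rw [← mul_sub]
  refine Dvd.dvd.mul_left ?_ _
  have h2 : (X ^ j.val : K[X]) = X ^ (j.val % m) * (X ^ m) ^ (j.val / m) := by
    rw [← pow_mul, ← pow_add, Nat.mod_add_div]
  rw [h2]
  have h3 : (X ^ (j.val % m) * (X ^ m) ^ (j.val / m) - X ^ (j.val % m) : K[X])
      = X ^ (j.val % m) * ((X ^ m) ^ (j.val / m) - 1 ^ (j.val / m)) := by ring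
  rw [h3]
  exact Dvd.dvd.mul_left (sub_dvd_pow_sub_pow _ _ _) _

theorem fold_eq_zero_of_dvd {n m : ℕ} [NeZero n] [NeZero m] (hmn : m ∣ n) {K : Type*} [Field K]
    (f : ZMod n → K) (h : (X ^ m - 1 : K[X]) ∣ polyOf f) (i : ZMod m) :
    fold (ZMod.castHom hmn (ZMod m)).toAddMonoidHom f i = 0 := by
  refine polyOf_eq_zero_of_dvd _ ?_ i
  have := dvd_sub h (polyOf_fold hmn f)
  simpa using this

theorem polyOf_mul_dvd {n : ℕ} [NeZero n] {K : Type*} [CommRing K] (f g : ZMod n → K)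
    (h : ∀ l, ∑ j, f (j + l) * g j = 0) :
    (X ^ n - 1 : K[X]) ∣ polyOf f * polyOf (fun j => g (-j)) := by
  rw [← AdjoinRoot.mk_eq_zero]
  have hx : (AdjoinRoot.root (X ^ n - 1 : K[X])) ^ n = 1 := by
    have := AdjoinRoot.mk_self (f := (X ^ n - 1 : K[X]))
    rw [map_sub, map_pow, AdjoinRoot.mk_X, map_one] at this
    exact sub_eq_zero.mp this
  have hpoly : ∀ f : ZMod n → K, AdjoinRoot.mk (X ^ n - 1 : K[X]) (polyOf f)
      = ∑ j, (AdjoinRoot.of (X ^ n - 1 : K[X]) (f j)) * (AdjoinRoot.root (X ^ n - 1 : K[X])) ^ j.val := by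
    intro f
    simp [polyOf]
  rw [map_mul, hpoly, hpoly]
  rw [corr_expand _ hx (fun j => AdjoinRoot.of (X ^ n - 1 : K[X]) (f j))
    (fun j => AdjoinRoot.of (X ^ n - 1 : K[X]) (g j))]
  refine Finset.sum_eq_zero fun l _ => ?_
  have := congrArg (AdjoinRoot.of (X ^ n - 1 : K[X])) (h l)
  simp only [map_sum, map_mul, map_zero] at this
  rw [this, zero_mul]

/-- Key step modulo 2. -/
theorem key_mod2 (t : ℕ) (f : ZMod (2 ^ (t + 1)) → ZMod 2)
    (hf : ∀ l, ∑ j, f (j + l) * f j = 0) (i : ZMod (2 ^ t)) :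
    fold (ZMod.castHom (pow_dvd_pow 2 (Nat.le_succ t)) (ZMod (2 ^ t))).toAddMonoidHom f i = 0 := by
  have : Fact (Nat.Prime 2) := ⟨Nat.prime_two⟩
  have h1 := polyOf_mul_dvd f f hf
  have hX : ∀ k : ℕ, (X ^ (2 ^ k) - 1 : (ZMod 2)[X]) = (X - C 1) ^ (2 ^ k) := by
    intro k
    rw [sub_pow_char_pow]
    simp
  rw [hX] at h1
  have hprime : Prime (X - C 1 : (ZMod 2)[X]) := Polynomial.prime_X_sub_C 1
  have h2 : (X - C 1 : (ZMod 2)[X]) ^ (2 ^ t) ∣ polyOf f ∨
      (X - C 1 : (ZMod 2)[X]) ^ (2 ^ t) ∣ polyOf (fun j => f (-j)) := by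
    by_contra hcon
    push Not at hcon
    obtain ⟨ha, hb⟩ := hcon
    rw [pow_dvd_iff_le_emultiplicity, not_le] at ha hb
    rw [pow_dvd_iff_le_emultiplicity, emultiplicity_mul hprime] at h1
    have h3 : (((2 ^ (t + 1) : ℕ)) : ℕ∞) = ((2 ^ t : ℕ) : ℕ∞) + ((2 ^ t : ℕ) : ℕ∞) := by
      rw [← Nat.cast_add]; congr 1; ring
    rw [h3] at h1
    exact absurd h1 (not_le.mpr (ENat.add_lt_add ha hb))
  rcases h2 with h2 | h2
  · rw [← hX] at h2
    exact fold_eq_zero_of_dvd _ f h2 i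
  · rw [← hX] at h2
    have h4 := fold_eq_zero_of_dvd (pow_dvd_pow 2 (Nat.le_succ t)) (fun j => f (-j)) h2 (-i)
    rw [← h4]
    unfold fold
    rw [Finset.sum_filter, Finset.sum_filter]
    refine Fintype.sum_equiv (Equiv.neg _) _ _ fun j => ?_
    simp only [Equiv.neg_apply, neg_neg, map_neg, neg_inj]

/-- sum of all correlations -/
theorem sum_corr {A : Type*} [AddCommGroup A] [Fintype A] {R : Type*} [CommRing R] (G : A → R) :
    ∑ l, ∑ j, G (j + l) * G j = (∑ j, G j) ^ 2 := by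
  rw [Finset.sum_comm, sq, Finset.sum_mul_sum]
  rw [Finset.sum_comm (s := univ) (t := univ) (f := fun i j => G i * G j)]
  refine Finset.sum_congr rfl fun j _ => ?_
  exact Fintype.sum_equiv (Equiv.addLeft j) _ _ fun l => by simp

theorem odd_sq_mod8 (a : ℤ) (ha : Odd a) : (8 : ℤ) ∣ a * a - 1 := by
  have := Int.sq_mod_four_eq_one_of_odd ha
  obtain ⟨k, rfl⟩ := ha
  have h : Even (k * (k + 1)) := Int.even_mul_succ_self k
  obtain ⟨c, hc⟩ := h
  exact ⟨c, by linear_combination 4 * hc⟩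

theorem card_fiber_two (t : ℕ) (i : ZMod (2 ^ t)) :
    (univ.filter fun j : ZMod (2 ^ (t + 1)) =>
      (ZMod.castHom (pow_dvd_pow 2 (Nat.le_succ t)) (ZMod (2 ^ t))).toAddMonoidHom j = i).card = 2 := by
  classical
  set π := (ZMod.castHom (pow_dvd_pow 2 (Nat.le_succ t)) (ZMod (2 ^ t))).toAddMonoidHom with hπ
  have hsurj : Function.Surjective π :=
    ZMod.castHom_surjective (pow_dvd_pow 2 (Nat.le_succ t))
  have hall : ∀ i', (univ.filter fun j => π j = i').card = (univ.filter fun j => π j = i).card :=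
    fun i' => AddMonoidHom.card_fiber_eq_of_mem_range π (hsurj i') (hsurj i)
  have h1 : (univ : Finset (ZMod (2 ^ (t + 1)))).card
      = ∑ i', (univ.filter fun j => π j = i').card :=
    Finset.card_eq_sum_card_fiberwise (fun x _ => by simp)
  rw [Finset.sum_congr rfl fun i' _ => hall i', Finset.sum_const, Finset.card_univ,
    Finset.card_univ, ZMod.card, ZMod.card, smul_eq_mul] at h1
  exact (Nat.eq_of_mul_eq_mul_left (by positivity : 0 < 2 ^ t)
    ((pow_succ 2 t).symm.trans h1)).symm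

/-- Step 1 core: `G` on `ZMod (2^s)`, all values odd, autocorrelation `4^b m δ₀`, `m` odd,
`b ≥ 1` forces `s = b + 1`. -/
theorem odd_flat_two_group (s b : ℕ) (hb : 1 ≤ b) (m : ℤ) (hm : Odd m)
    (G : ZMod (2 ^ s) → ℤ) (hodd : ∀ j, Odd (G j))
    (h0 : ∑ j, G j * G j = 4 ^ b * m)
    (hcorr : ∀ l : ZMod (2 ^ s), l ≠ 0 → ∑ j, G (j + l) * G j = 0) : s = b + 1 := by
  induction b, hb using Nat.le_induction generalizing s with
  | base =>
    have h8 : (8 : ℤ) ∣ 4 * m - 2 ^ s := by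
      have : (8 : ℤ) ∣ ∑ j, (G j * G j - 1) := Finset.dvd_sum fun j _ => odd_sq_mod8 _ (hodd j)
      rw [Finset.sum_sub_distrib, h0] at this
      simpa using this
    obtain ⟨k, rfl⟩ := hm
    rcases s with _ | _ | _ | s
    · norm_num at h8; omega
    · norm_num at h8; omega
    · rfl
    · exfalso
      have : (2 : ℤ) ^ (s + 1 + 1 + 1) = 8 * 2 ^ s := by ring
      rw [this] at h8
      omega
  | succ b hb ih =>
    have h16 : (16 : ℤ) ∣ 4 ^ (b + 1) * m := by
      obtain ⟨c, rfl⟩ := Nat.exists_eq_add_of_le hb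
      exact ⟨4 ^ c * m, by ring⟩
    have h8 : (8 : ℤ) ∣ 4 ^ (b + 1) * m - 2 ^ s := by
      have : (8 : ℤ) ∣ ∑ j, (G j * G j - 1) := Finset.dvd_sum fun j _ => odd_sq_mod8 _ (hodd j)
      rw [Finset.sum_sub_distrib, h0] at this
      simpa using this
    have h8s : (8 : ℤ) ∣ 2 ^ s := by
      have h8' : (8 : ℤ) ∣ 4 ^ (b + 1) * m := dvd_trans (by norm_num) h16
      have := dvd_sub h8' h8
      simpa using this
    obtain ⟨t, rfl⟩ : ∃ t, s = t + 1 := by
      rcases s with _ | t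
      · norm_num at h8s
      · exact ⟨t, rfl⟩
    choose B hB using hodd
    have hSG : (∑ j, G j) ^ 2 = 4 ^ (b + 1) * m := by
      rw [← sum_corr, Finset.sum_eq_single 0]
      · simpa using h0
      · intro l _ hl
        exact hcorr l hl
      · simp
    have h4 : (4 : ℤ) ∣ ∑ j, G j := by
      rw [← Int.pow_dvd_pow_iff (n := 2) two_ne_zero, hSG]
      simpa using h16
    have hSGB : ∑ j, G j = 2 * (∑ j, B j) + 2 ^ (t + 1) := by
      simp_rw [hB]
      rw [Finset.sum_add_distrib, ← Finset.mul_sum]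
      simp
    have hSB : (2 : ℤ) ∣ ∑ j, B j := by
      rw [hSGB] at h4
      omega
    have hcB : ∀ l, (2 : ℤ) ∣ ∑ j, B (j + l) * B j := by
      intro l
      have e1 : ∑ j, G (j + l) * G j
          = 4 * (∑ j, B (j + l) * B j) + 4 * (∑ j, B j) + 2 ^ (t + 1) := by
        have e2 : ∑ j, B (j + l) = ∑ j, B j :=
          Fintype.sum_equiv (Equiv.addRight l) _ _ fun j => rfl
        have e3 : ∀ j, G (j + l) * G j = 4 * (B (j + l) * B j) + 2 * B (j + l) + 2 * B j + 1 := by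
          intro j; rw [hB, hB]; ring
        simp_rw [e3]
        rw [Finset.sum_add_distrib, Finset.sum_add_distrib, Finset.sum_add_distrib,
          ← Finset.mul_sum, ← Finset.mul_sum, ← Finset.mul_sum, e2]
        simp
        ring
      have e4 : (8 : ℤ) ∣ ∑ j, G (j + l) * G j := by
        by_cases hl : l = 0
        · subst hl
          simp only [add_zero, h0]
          exact dvd_trans (by norm_num) h16
        · rw [hcorr l hl]; exact dvd_zero _
      rw [e1] at e4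
      omega
    have hf : ∀ l, ∑ j, ((B (j + l) : ℤ) : ZMod 2) * ((B j : ℤ) : ZMod 2) = 0 := by
      intro l
      have := (ZMod.intCast_zmod_eq_zero_iff_dvd (∑ j, B (j + l) * B j) 2).mpr (by exact_mod_cast hcB l)
      push_cast at this
      exact this
    have hfold := key_mod2 t (fun j => ((B j : ℤ) : ZMod 2)) hf
    set π := (ZMod.castHom (pow_dvd_pow 2 (Nat.le_succ t)) (ZMod (2 ^ t))).toAddMonoidHom with hπ
    have hfB : ∀ i, (2 : ℤ) ∣ fold π B i := by
      intro i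
      have h := hfold i
      unfold fold at h ⊢
      rw [← Int.cast_sum] at h
      exact_mod_cast (ZMod.intCast_zmod_eq_zero_iff_dvd _ 2).mp h
    have hfG : ∀ i, fold π G i = 2 * (fold π B i + 1) := by
      intro i
      unfold fold
      simp_rw [hB]
      rw [Finset.sum_add_distrib, ← Finset.mul_sum, Finset.sum_const, hπ, card_fiber_two t i]
      ring
    have hcorr' : ∀ l, 4 * ∑ i, (fold π B (i + l) + 1) * (fold π B i + 1)
        = ∑ t with π t = l, ∑ k, G (k + t) * G k := by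
      intro l
      rw [← fold_corr π G l, Finset.mul_sum]
      refine Finset.sum_congr rfl fun i _ => ?_
      rw [hfG, hfG]; ring
    have hmain := ih t (fun i => fold π B i + 1) ?_ ?_ ?_
    · omega
    · intro i
      obtain ⟨c, hc⟩ := hfB i
      exact ⟨c, by rw [hc]⟩
    · have h := hcorr' 0
      have h2 : ∑ t with π t = 0, ∑ k, G (k + t) * G k = 4 ^ (b + 1) * m := by
        rw [Finset.sum_eq_single 0]
        · simpa using h0
        · intro l _ hl
          exact hcorr l hl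
        · simp
      rw [h2] at h
      simp only [add_zero] at h
      have h3 : (4 : ℤ) * ∑ i, (fold π B i + 1) * (fold π B i + 1) = 4 * (4 ^ b * m) := by
        rw [h]; ring
      exact mul_left_cancel₀ (by norm_num) h3
    · intro l hl
      have h := hcorr' l
      have h2 : ∑ t with π t = l, ∑ k, G (k + t) * G k = 0 := by
        refine Finset.sum_eq_zero fun t ht => hcorr t ?_
        rintro rfl
        simp only [Finset.mem_filter, Finset.mem_univ, true_and, map_zero] at ht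
        exact hl ht.symm
      rw [h2] at h
      simpa using h

end Crest.Agent.R44
end

-- ▼ part R44/TurynMain
section

set_option autoImplicit false

namespace Crest.Agent.R44

theorem card_even {n : ℕ} [NeZero n] {h : ZMod n → ℤ} (hp : PerfSeq n h) (hn1 : n ≠ 1) :
    Even n := by
  have hlt : 1 < n := by
    have := NeZero.ne n
    omega
  have : Fact (1 < n) := ⟨hlt⟩
  have h1 : (1 : ZMod n) ≠ 0 := one_ne_zero
  have h2 := hp.corr 1 h1
  have h3 := congrArg (Int.cast : ℤ → ZMod 2) h2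
  push_cast at h3
  have h4 : ∀ j : ZMod n, ((h (j + 1) : ZMod 2)) * (h j : ZMod 2) = 1 := by
    intro j
    rcases hp.pm (j + 1) with e1 | e1 <;> rcases hp.pm j with e2 | e2 <;> rw [e1, e2] <;> decide
  rw [Finset.sum_congr rfl fun j _ => h4 j] at h3
  simp only [Finset.sum_const, Finset.card_univ, ZMod.card, nsmul_eq_mul, mul_one] at h3
  exact even_iff_two_dvd.mpr ((ZMod.natCast_eq_zero_iff n 2).mp h3)

theorem sum_sq_eq {n : ℕ} [NeZero n] {h : ZMod n → ℤ} (hp : PerfSeq n h) :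
    (∑ j, h j) * (∑ j, h j) = (n : ℤ) := by
  have := ev_mul_ev hp (1 : ℤ) 1 (one_pow _) (one_mul _)
  simpa [ev] using this

/-- autocorrelation of the fold. -/
theorem castFold_corr {n m : ℕ} [NeZero n] [NeZero m] (hmn : m ∣ n) {h : ZMod n → ℤ}
    (hp : PerfSeq n h) (l : ZMod m) :
    ∑ i : ZMod m, (∑ j with ZMod.castHom hmn (ZMod m) j = i + l, h j)
      * (∑ j with ZMod.castHom hmn (ZMod m) j = i, h j) = if l = 0 then (n : ℤ) else 0 := by
  set c := ZMod.castHom hmn (ZMod m) with hc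
  have h1 : ∑ i : ZMod m, (∑ j with c j = i + l, h j) * (∑ j with c j = i, h j)
      = ∑ k : ZMod n, (∑ j with c j = c k + l, h j) * h k := by
    rw [← Finset.sum_fiberwise (Finset.univ : Finset (ZMod n)) c]
    refine Finset.sum_congr rfl fun i _ => ?_
    rw [Finset.mul_sum]
    refine Finset.sum_congr rfl fun k hk => ?_
    rw [(Finset.mem_filter.mp hk).2]
  have h2 : ∀ k : ZMod n, (∑ j with c j = c k + l, h j) = ∑ d with c d = l, h (k + d) := by
    intro k
    rw [Finset.sum_filter, Finset.sum_filter, ← Equiv.sum_comp (Equiv.addLeft k)]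
    refine Finset.sum_congr rfl fun d _ => ?_
    simp only [Equiv.coe_addLeft, map_add, add_right_inj]
  rw [h1]
  simp_rw [h2, Finset.sum_mul]
  rw [Finset.sum_comm]
  have h3 : ∀ d : ZMod n, ∑ k : ZMod n, h (k + d) * h k = if d = 0 then (n : ℤ) else 0 := by
    intro d
    split_ifs with hd
    · subst hd
      have : ∀ k : ZMod n, h (k + 0) * h k = 1 := by
        intro k
        rw [add_zero]
        rcases hp.pm k with hk | hk <;> rw [hk] <;> norm_num
      rw [Finset.sum_congr rfl fun k _ => this k]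
      simp [ZMod.card]
    · exact hp.corr d hd
  rw [Finset.sum_congr rfl fun d _ => h3 d, Finset.sum_ite_eq']
  simp only [Finset.mem_filter, Finset.mem_univ, true_and, map_zero]
  by_cases hl : l = 0
  · rw [if_pos hl, if_pos hl.symm]
  · rw [if_neg hl, if_neg (Ne.symm hl)]

theorem castFold_card {n m : ℕ} [NeZero n] [NeZero m] (hmn : m ∣ n) (i : ZMod m) :
    (Finset.univ.filter fun j : ZMod n => ZMod.castHom hmn (ZMod m) j = i).card * m = n := by
  have hsurj := ZMod.castHom_surjective hmn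
  have h1 : ∀ i' : ZMod m,
      (Finset.univ.filter fun j : ZMod n => ZMod.castHom hmn (ZMod m) j = i').card
      = (Finset.univ.filter fun j : ZMod n => ZMod.castHom hmn (ZMod m) j = i).card := by
    intro i'
    exact AddMonoidHom.card_fiber_eq_of_mem_range (ZMod.castHom hmn (ZMod m))
      (hsurj i') (hsurj i)
  have h2 := Finset.card_eq_sum_card_fiberwise (s := (Finset.univ : Finset (ZMod n)))
    (t := (Finset.univ : Finset (ZMod m))) (f := ZMod.castHom hmn (ZMod m))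
    (fun x _ => Finset.mem_coe.mpr (Finset.mem_univ _))
  rw [Finset.sum_congr rfl fun i' _ => h1 i', Finset.sum_const, Finset.card_univ,
    Finset.card_univ, ZMod.card, ZMod.card, smul_eq_mul, mul_comm] at h2
  exact h2.symm

/-- Step 1. -/
theorem turyn {n : ℕ} [NeZero n] {h : ZMod n → ℤ} (hp : PerfSeq n h) :
    n = 1 ∨ ∃ u : ℕ, Odd u ∧ n = 4 * u ^ 2 := by
  by_cases hn1 : n = 1
  · exact Or.inl hn1
  right
  have hev := card_even hp hn1
  have hsq := sum_sq_eq hp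
  set s : ℤ := ∑ j, h j with hs
  have hn : n = s.natAbs ^ 2 := by
    have : (n : ℤ) = (s.natAbs : ℤ) ^ 2 := by
      rw [Int.natCast_natAbs, sq_abs, sq]; exact hsq.symm
    exact_mod_cast this
  have hs0 : s.natAbs ≠ 0 := by
    intro h0
    rw [h0] at hn
    exact NeZero.ne n (by simpa using hn)
  obtain ⟨a, w, hw, hsw⟩ := Nat.exists_eq_two_pow_mul_odd hs0
  have hnaw : n = 2 ^ (2 * a) * w ^ 2 := by
    rw [hn, hsw]; ring
  have ha : 1 ≤ a := by
    by_contra hcon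
    have : a = 0 := by omega
    subst this
    have hodd : Odd n := by
      rw [hnaw]; simpa using hw.pow
    exact (Nat.not_even_iff_odd.mpr hodd) hev
  have hdvd : 2 ^ (2 * a) ∣ n := ⟨w ^ 2, hnaw⟩
  let G : ZMod (2 ^ (2 * a)) → ℤ := fun i =>
    ∑ j with ZMod.castHom hdvd (ZMod (2 ^ (2 * a))) j = i, h j
  have hGodd : ∀ i, Odd (G i) := by
    intro i
    have hc := castFold_card hdvd i
    have hcard : (Finset.univ.filter fun j : ZMod n =>
        ZMod.castHom hdvd (ZMod (2 ^ (2 * a))) j = i).card = w ^ 2 := by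
      have : (Finset.univ.filter fun j : ZMod n =>
        ZMod.castHom hdvd (ZMod (2 ^ (2 * a))) j = i).card * 2 ^ (2 * a)
          = w ^ 2 * 2 ^ (2 * a) := by rw [hc]; rw [mul_comm]; exact hnaw
      exact Nat.eq_of_mul_eq_mul_right (by positivity) this
    have h2 : ((G i : ℤ) : ZMod 2) = 1 := by
      simp only [G]
      push_cast
      have h4 : ∀ j : ZMod n, (h j : ZMod 2) = 1 := by
        intro j
        rcases hp.pm j with e2 | e2 <;> rw [e2] <;> decide
      rw [Finset.sum_congr rfl fun j _ => h4 j, Finset.sum_const, hcard]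
      have : ((w ^ 2 : ℕ) : ZMod 2) = 1 := (ZMod.natCast_eq_one_iff_odd).mpr hw.pow
      simpa using this
    exact (ZMod.intCast_eq_one_iff_odd).mp h2
  have h0 : ∑ j, G j * G j = 4 ^ a * ((w : ℤ) ^ 2) := by
    have := castFold_corr hdvd hp 0
    rw [if_pos rfl] at this
    simp only [add_zero] at this
    rw [show (∑ j, G j * G j) = (n : ℤ) from this, hnaw]
    push_cast
    rw [pow_mul]
    norm_num
  have hc : ∀ l : ZMod (2 ^ (2 * a)), l ≠ 0 → ∑ j, G (j + l) * G j = 0 := by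
    intro l hl
    have := castFold_corr hdvd hp l
    rw [if_neg hl] at this
    exact this
  have hfin := odd_flat_two_group (2 * a) a ha ((w : ℤ) ^ 2) (by exact_mod_cast hw.pow) G hGodd h0 hc
  have ha1 : a = 1 := by omega
  refine ⟨w, hw, ?_⟩
  rw [hnaw, ha1]
  norm_num

end Crest.Agent.R44
end

-- ▼ part R44/Above
section

set_option autoImplicit false

open NumberField

namespace Crest.Agent.R44

/-- There is a prime of the ring of integers above every rational prime. -/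
theorem exists_prime_above (K : Type*) [Field K] [NumberField K] (p : ℕ) (hp : p.Prime) :
    ∃ Q : Ideal (𝓞 K), Q.IsPrime ∧ (p : 𝓞 K) ∈ Q := by
  have hmax : (Ideal.span {(p : ℤ)}).IsMaximal := by
    have : Prime (p : ℤ) := Nat.prime_iff_prime_int.mp hp
    exact PrincipalIdealRing.isMaximal_of_irreducible this.irreducible
  obtain ⟨Q, hQ, hQ'⟩ := Ideal.exists_ideal_over_maximal_of_isIntegral (S := 𝓞 K)
    (Ideal.span {(p : ℤ)}) (by
      rw [(RingHom.injective_iff_ker_eq_bot _).mp (RingHom.injective_int (algebraMap ℤ (𝓞 K)))]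
      exact bot_le)
  refine ⟨Q, hQ.isPrime, ?_⟩
  have : (p : ℤ) ∈ Ideal.comap (algebraMap ℤ (𝓞 K)) Q := by
    rw [hQ']
    exact Ideal.mem_span_singleton_self _
  simpa using this

end Crest.Agent.R44
end

-- ▼ part R44/Main

set_option autoImplicit false

open NumberField

namespace Crest.Agent.R44

/-- `ξ_T = ∏_{p ∈ T} ζ^(n/p)`, `n = 4u²`. -/
noncomputable def xiT {O : Type*} [CommRing O] (ζ : O) (u : ℕ) (T : Finset ℕ) : O :=
  ∏ p ∈ T, ζ ^ (4 * u ^ 2 / p)

section cyc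

variable {O : Type*} [CommRing O] [IsDomain O] {u : ℕ} {ζ : O}

theorem xiT_insert (ζ : O) (u : ℕ) (p : ℕ) (T : Finset ℕ) (hp : p ∉ T) :
    xiT ζ u (insert p T) = ζ ^ (4 * u ^ 2 / p) * xiT ζ u T := by
  unfold xiT
  rw [Finset.prod_insert hp]

theorem dvd_n {p : ℕ} (hp : p ∈ u.primeFactors) : p ∣ 4 * u ^ 2 :=
  Dvd.dvd.mul_left (dvd_pow (Nat.dvd_of_mem_primeFactors hp) two_ne_zero) 4

theorem zp_pow (hζ : ζ ^ (4 * u ^ 2) = 1) {p : ℕ} (hp : p ∈ u.primeFactors) (m : ℕ)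
    (hm : p ∣ m) : (ζ ^ (4 * u ^ 2 / p)) ^ m = 1 := by
  obtain ⟨k, rfl⟩ := hm
  rw [← pow_mul, ← mul_assoc, Nat.div_mul_cancel (dvd_n hp), pow_mul, hζ, one_pow]

theorem xiT_pow (hζ : ζ ^ (4 * u ^ 2) = 1) (T : Finset ℕ) (hT : T ⊆ u.primeFactors) (m : ℕ)
    (hm : ∀ p ∈ T, p ∣ m) : (xiT ζ u T) ^ m = 1 := by
  unfold xiT
  rw [← Finset.prod_pow]
  exact Finset.prod_eq_one fun p hp => zp_pow hζ (hT hp) m (hm p hp)

theorem xiT_ne_one (hu : u ≠ 0) (hζ : IsPrimitiveRoot ζ (4 * u ^ 2)) (T : Finset ℕ)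
    (hT : T ⊆ u.primeFactors) (hne : T.Nonempty) : xiT ζ u T ≠ 1 := by
  intro h1
  obtain ⟨p, hp⟩ := hne
  have hpp : p.Prime := Nat.prime_of_mem_primeFactors (hT hp)
  set m := ∏ q ∈ T.erase p, q with hm
  have h2 : (xiT ζ u (T.erase p)) ^ m = 1 :=
    xiT_pow hζ.pow_eq_one _ ((Finset.erase_subset _ _).trans hT) m
      (fun q hq => Finset.dvd_prod_of_mem _ hq)
  have h3 : (ζ ^ (4 * u ^ 2 / p)) ^ m = 1 := by
    have h4 : xiT ζ u T = ζ ^ (4 * u ^ 2 / p) * xiT ζ u (T.erase p) := by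
      rw [← xiT_insert ζ u p (T.erase p) (Finset.notMem_erase p T), Finset.insert_erase hp]
    have h5 : (xiT ζ u T) ^ m = 1 := by rw [h1, one_pow]
    rw [h4, mul_pow, h2, mul_one] at h5
    exact h5
  have hprim : IsPrimitiveRoot (ζ ^ (4 * u ^ 2 / p)) p :=
    hζ.pow (by positivity) (Nat.div_mul_cancel (dvd_n (hT hp))).symm
  have h6 : p ∣ m := hprim.dvd_of_pow_eq_one m h3
  rw [hm, Prime.dvd_finsetProd_iff hpp.prime] at h6
  obtain ⟨q, hq, hpq⟩ := h6
  have hqq : q.Prime := Nat.prime_of_mem_primeFactors (hT (Finset.mem_of_mem_erase hq))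
  exact Finset.ne_of_mem_erase hq ((Nat.prime_dvd_prime_iff_eq hpp hqq).mp hpq).symm

theorem star_app [CharZero O] (hodd : Odd u) [NeZero (4 * u ^ 2)]
    {h : ZMod (4 * u ^ 2) → ℤ} (hp : PerfSeq (4 * u ^ 2) h)
    (hζ : ζ ^ (4 * u ^ 2) = 1) (p : ℕ) (hpu : p ∈ u.primeFactors) (T : Finset ℕ)
    (hT : T ⊆ u.primeFactors) (hpT : p ∉ T) (w : O) (hw : w ^ 4 = 1)
    (Q : Ideal O) [Q.IsPrime] (hpQ : (p : O) ∈ Q) :
    ∃ a b : O, a ∉ Q ∧ b ∉ Q ∧ a - b ∈ Q ∧
      ev h (w * xiT ζ u (insert p T)) * a = ev h (w * xiT ζ u T) * b := by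
  have hpp : p.Prime := Nat.prime_of_mem_primeFactors hpu
  haveI : Fact p.Prime := ⟨hpp⟩
  have hn0 : 4 * u ^ 2 ≠ 0 := NeZero.ne _
  have hp2 : p ≠ 2 := by
    rintro rfl
    have := Nat.dvd_of_mem_primeFactors hpu
    exact (Nat.not_even_iff_odd.mpr hodd) (even_iff_two_dvd.mpr this)
  set n := 4 * u ^ 2 with hn
  set n' := n / p ^ (n.factorization p) with hn'
  have h4 : 4 ∣ n' := by
    refine Nat.dvd_ordCompl_of_dvd_not_dvd (Dvd.intro _ rfl) ?_
    intro h
    have : p ∣ 2 := by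
      have : p ∣ 2 ^ 2 := by simpa using h
      exact hpp.dvd_of_dvd_pow this
    exact hp2 ((Nat.prime_dvd_prime_iff_eq hpp Nat.prime_two).mp this)
  have hw' : w ^ n' = 1 := by
    obtain ⟨k, hk⟩ := h4
    rw [hk, pow_mul, hw, one_pow]
  have hκ : (w * xiT ζ u T) ^ n' = 1 := by
    rw [mul_pow, hw', one_mul]
    refine xiT_pow hζ T hT n' fun q hq => ?_
    have hqq : q.Prime := Nat.prime_of_mem_primeFactors (hT hq)
    refine Nat.dvd_ordCompl_of_dvd_not_dvd (dvd_n (hT hq)) ?_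
    intro h
    have := (Nat.prime_dvd_prime_iff_eq hpp hqq).mp h
    exact hpT (this ▸ hq)
  have hs := star hp p (n.factorization p) n' (Nat.ordProj_mul_ordCompl_eq_self n p).symm
    (hpp.factorization_pos_of_dvd hn0 (dvd_n hpu)) (Nat.not_dvd_ordCompl hpp hn0)
    (w * xiT ζ u T) (ζ ^ (4 * u ^ 2 / p)) hκ (zp_pow hζ hpu p dvd_rfl) Q hpQ
  obtain ⟨a, b, ha, hb, hab, he⟩ := hs
  refine ⟨a, b, ha, hb, hab, ?_⟩
  rw [← he, xiT_insert ζ u p T hpT]
  congr 2
  ring

end cyc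

theorem norm_half {n u : ℕ} (hn : n = 4 * u ^ 2) (z : ℂ) (hz : ‖2 * z‖ ^ 2 = (n : ℝ)) :
    ‖z‖ = u := by
  rw [norm_mul, hn] at hz
  have h2 : ‖(2 : ℂ)‖ = 2 := by norm_num
  rw [h2] at hz
  push_cast at hz
  have h3 : ‖z‖ ^ 2 = (u : ℝ) ^ 2 := by nlinarith
  exact (pow_left_inj₀ (norm_nonneg _) (Nat.cast_nonneg _) two_ne_zero).mp h3

/-- Core of the argument, in a number field containing a primitive `4u²`-th root of unity. -/
theorem core {K : Type*} [Field K] [NumberField K] (u : ℕ) (hu : Odd u) (hu1 : u ≠ 1)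
    [NeZero (4 * u ^ 2)] (h : ZMod (4 * u ^ 2) → ℤ) (hp : PerfSeq (4 * u ^ 2) h)
    (ζ : 𝓞 K) (hζ : IsPrimitiveRoot ζ (4 * u ^ 2)) : False := by
  classical
  have hu0 : u ≠ 0 := by
    rintro rfl
    exact absurd hu (by decide)
  set P := u.primeFactors with hP
  have hne : P.Nonempty := by
    rw [hP, Nat.nonempty_primeFactors]
    omega
  have hζ1 := hζ.pow_eq_one
  set I : 𝓞 K := ζ ^ (u ^ 2) with hIdef
  have hI : I ^ 2 = -1 := by
    have h1 : IsPrimitiveRoot (ζ ^ (2 * u ^ 2)) 2 := hζ.pow (by positivity) (by ring)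
    have h2 := h1.eq_neg_one_of_two_right
    rw [hIdef, ← pow_mul, mul_comm, h2]
  have hI4 : I ^ 4 = 1 := by
    have : I ^ 4 = (I ^ 2) ^ 2 := by ring
    rw [this, hI]; ring
  -- all the roots of unity
  have hξu : ∀ T, T ⊆ P → (xiT ζ u T) ^ (u ^ 2) = 1 := fun T hT =>
    xiT_pow hζ1 T hT _ fun p hp' =>
      dvd_pow (Nat.dvd_of_mem_primeFactors (hT hp')) two_ne_zero
  have hrel : ∀ T, ∃ α τ ρ : 𝓞 K, T ⊆ P → (ev h (xiT ζ u T) = 2 * α ∧
      ev h (-(xiT ζ u T)) = 2 * (α - 2 * τ) ∧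
      ev h (I * (xiT ζ u T)) = 2 * (α + (1 + I) * (τ + if T = ∅ then 1 else 0) + 2 * ρ)) := by
    intro T
    by_cases hT : T ⊆ P
    · obtain ⟨α, τ, ρ, h1, h2, h3⟩ := parity_rel u hu h hp.pm I (xiT ζ u T) hI (hξu T hT)
      refine ⟨α, τ, ρ, fun _ => ⟨h1, h2, ?_⟩⟩
      have : (xiT ζ u T = 1) ↔ T = ∅ := by
        constructor
        · intro h4
          by_contra h5
          exact xiT_ne_one hu0 hζ T hT (Finset.nonempty_iff_ne_empty.mpr h5) h4
        · rintro rfl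
          simp [xiT]
      rw [h3]
      simp only [this]
    · exact ⟨0, 0, 0, fun h1 => absurd h1 hT⟩
  choose α τ ρ hrel using hrel
  set β : Finset ℕ → 𝓞 K := fun T => α T - 2 * τ T with hβdef
  set γ : Finset ℕ → 𝓞 K := fun T =>
    α T + (1 + I) * (τ T + if T = ∅ then 1 else 0) + 2 * ρ T with hγdef
  have h20 : (2 : 𝓞 K) ≠ 0 := two_ne_zero
  -- values
  have hevα : ∀ T, T ⊆ P → ev h (1 * xiT ζ u T) = 2 * α T := fun T hT => by
    rw [one_mul]; exact (hrel T hT).1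
  have hevβ : ∀ T, T ⊆ P → ev h ((-1) * xiT ζ u T) = 2 * β T := fun T hT => by
    rw [neg_one_mul]; exact (hrel T hT).2.1
  have hevγ : ∀ T, T ⊆ P → ev h (I * xiT ζ u T) = 2 * γ T := fun T hT => (hrel T hT).2.2
  -- general facts, for `f` one of `α β γ`, `w` one of `1, -1, I`
  have hroot : ∀ (w : 𝓞 K), w ^ 4 = 1 → ∀ T, T ⊆ P → (w * xiT ζ u T) ^ (4 * u ^ 2) = 1 := by
    intro w hw T hT
    rw [mul_pow, pow_mul, hw, one_pow, one_mul, mul_comm, pow_mul, hξu T hT, one_pow]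
  have hnorm : ∀ (w : 𝓞 K) (f : Finset ℕ → 𝓞 K), w ^ 4 = 1 →
      (∀ T, T ⊆ P → ev h (w * xiT ζ u T) = 2 * f T) →
      ∀ T, T ⊆ P → ∀ φ : K →+* ℂ, ‖φ (f T : K)‖ = u := by
    intro w f hw hf T hT φ
    refine norm_half rfl _ ?_
    have h1 := norm_ev_sq hp (((φ.comp (algebraMap (𝓞 K) K)) (w * xiT ζ u T)) : ℂ) (by
      rw [← map_pow, hroot w hw T hT, map_one])
    rw [← map_ev h, hf T hT, map_mul, map_ofNat] at h1
    exact h1
  have hinv : ∀ (w : 𝓞 K) (f : Finset ℕ → 𝓞 K), w ^ 4 = 1 →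
      (∀ T, T ⊆ P → ev h (w * xiT ζ u T) = 2 * f T) →
      (∀ y : 𝓞 K, y ^ (u ^ 2) = 1 → ∃ g, ev h (w ^ 3 * y) = 2 * g) →
      ∀ T, T ⊆ P → ∃ f' : 𝓞 K, f T * f' = (u : 𝓞 K) ^ 2 := by
    intro w f hw hf hg T hT
    have hu2 : 1 ≤ u ^ 2 := Nat.one_le_iff_ne_zero.mpr (pow_ne_zero 2 hu0)
    obtain ⟨g, hg⟩ := hg ((xiT ζ u T) ^ (u ^ 2 - 1)) (by
      rw [← pow_mul, mul_comm, pow_mul, hξu T hT, one_pow])
    have h1 := ev_mul_ev hp (w * xiT ζ u T) (w ^ 3 * (xiT ζ u T) ^ (u ^ 2 - 1))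
      (hroot w hw T hT) (by
        have : w * xiT ζ u T * (w ^ 3 * (xiT ζ u T) ^ (u ^ 2 - 1))
            = w ^ 4 * ((xiT ζ u T) ^ (u ^ 2 - 1) * xiT ζ u T) := by ring
        rw [this, ← pow_succ, Nat.sub_add_cancel hu2, hw, hξu T hT, one_mul])
    rw [hf T hT, hg] at h1
    refine ⟨g, ?_⟩
    push_cast at h1
    apply mul_left_cancel₀ h20
    apply mul_left_cancel₀ h20
    have h5 : (2 : 𝓞 K) * (2 * (u : 𝓞 K) ^ 2) = 4 * (u : 𝓞 K) ^ 2 := by ring
    rw [h5, ← h1]
    ring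
  have hloc : ∀ (w : 𝓞 K) (f : Finset ℕ → 𝓞 K), w ^ 4 = 1 →
      (∀ T, T ⊆ P → ev h (w * xiT ζ u T) = 2 * f T) →
      ∀ p ∈ P, ∀ Q : Ideal (𝓞 K), Q.IsPrime → (p : 𝓞 K) ∈ Q → ∀ T, T ⊆ P → p ∉ T →
      ∃ a b : 𝓞 K, a ∉ Q ∧ b ∉ Q ∧ a - b ∈ Q ∧ f (insert p T) * a = f T * b := by
    intro w f hw hf p hpP Q hQ hpQ T hT hpT
    haveI := hQ
    obtain ⟨a, b, ha, hb, hab, he⟩ := star_app hu hp hζ1 p hpP T hT hpT w hw Q hpQ
    refine ⟨a, b, ha, hb, hab, ?_⟩
    rw [hf T hT, hf (insert p T) (Finset.insert_subset hpP hT)] at he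
    apply mul_left_cancel₀ h20
    rw [← mul_assoc, he, mul_assoc]
  have hw1 : (1 : 𝓞 K) ^ 4 = 1 := one_pow 4
  have hwm : (-1 : 𝓞 K) ^ 4 = 1 := by norm_num
  have hg1 : ∀ y : 𝓞 K, y ^ (u ^ 2) = 1 → ∃ g, ev h ((1 : 𝓞 K) ^ 3 * y) = 2 * g := by
    intro y hy
    obtain ⟨a, t, r, h1, h2, h3⟩ := parity_rel u hu h hp.pm I y hI hy
    exact ⟨a, by rw [one_pow, one_mul, h1]⟩
  have hgm : ∀ y : 𝓞 K, y ^ (u ^ 2) = 1 → ∃ g, ev h ((-1 : 𝓞 K) ^ 3 * y) = 2 * g := by
    intro y hy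
    obtain ⟨a, t, r, h1, h2, h3⟩ := parity_rel u hu h hp.pm I y hI hy
    exact ⟨a - 2 * t, by rw [show (-1 : 𝓞 K) ^ 3 * y = -y by ring, h2]⟩
  have hgI : ∀ y : 𝓞 K, y ^ (u ^ 2) = 1 → ∃ g, ev h (I ^ 3 * y) = 2 * g := by
    intro y hy
    obtain ⟨a, t, r, h1, h2, h3⟩ := parity_rel u hu h hp.pm (-I) y (by rw [neg_sq, hI]) hy
    refine ⟨a + (1 + -I) * (t + if y = 1 then 1 else 0) + 2 * r, ?_⟩
    rw [show I ^ 3 * y = (-I) * y by rw [show I ^ 3 = I ^ 2 * I by ring, hI]; ring, h3]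
  have hprime : ∀ p ∈ P, p.Prime := fun p hp' => Nat.prime_of_mem_primeFactors hp'
  have hodd : ∀ p ∈ P, p ≠ 2 := by
    rintro p hp' rfl
    have := Nat.dvd_of_mem_primeFactors hp'
    exact (Nat.not_even_iff_odd.mpr hu) (even_iff_two_dvd.mpr this)
  have hup : ∀ p, p.Prime → p ∣ u → p ∈ P := fun p h1 h2 =>
    Nat.mem_primeFactors.mpr ⟨h1, h2, hu0⟩
  have h1I : ∀ Q : Ideal (𝓞 K), Q.IsPrime → (2 : 𝓞 K) ∈ Q → (1 + I) ∈ Q := by
    intro Q hQ h2
    refine hQ.mem_of_pow_mem 2 ?_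
    have : (1 + I) ^ 2 = 2 * I := by
      have : (1 + I) ^ 2 = 1 + 2 * I + I ^ 2 := by ring
      rw [this, hI]; ring
    rw [this]
    exact Q.mul_mem_right _ h2
  have hE1 := global_step P hne hprime hodd u hup hu0 hu α β
    (hinv 1 α hw1 hevα hg1) (hinv (-1) β hwm hevβ hgm)
    (hnorm 1 α hw1 hevα) (hnorm (-1) β hwm hevβ)
    (hloc 1 α hw1 hevα) (hloc (-1) β hwm hevβ) (by
      intro Q hQ h2 T hT
      have : β T - α T = 2 * (-(τ T)) := by simp only [hβdef]; ring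
      rw [this]
      exact Q.mul_mem_right _ h2)
  have hE2 := global_step P hne hprime hodd u hup hu0 hu α γ
    (hinv 1 α hw1 hevα hg1) (hinv I γ hI4 hevγ hgI)
    (hnorm 1 α hw1 hevα) (hnorm I γ hI4 hevγ)
    (hloc 1 α hw1 hevα) (hloc I γ hI4 hevγ) (by
      intro Q hQ h2 T hT
      have : γ T - α T = (1 + I) * (τ T + if T = ∅ then 1 else 0) + 2 * ρ T := by
        simp only [hγdef]; ring
      rw [this]
      exact Q.add_mem (Q.mul_mem_right _ (h1I Q hQ h2)) (Q.mul_mem_right _ h2))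
  have hfin : (1 + I) ∣ ∏ T ∈ P.powerset.erase ∅, α T :=
    parity_step I hI P.powerset (fun T => Even T.card) ∅ (Finset.empty_mem_powerset P)
      α β γ τ ρ (fun T _ => rfl) (fun T _ => rfl) hE1 hE2
  obtain ⟨Q, hQ, h2Q⟩ := exists_prime_above K 2 Nat.prime_two
  have h2Q' : (2 : 𝓞 K) ∈ Q := by exact_mod_cast h2Q
  have h3 : ∏ T ∈ P.powerset.erase ∅, α T ∈ Q := by
    obtain ⟨r, hr⟩ := hfin
    rw [hr]
    exact Q.mul_mem_right _ (h1I Q hQ h2Q')
  rw [hQ.prod_mem_iff] at h3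
  obtain ⟨T, hT, hTQ⟩ := h3
  have hTP : T ⊆ P := Finset.mem_powerset.mp (Finset.mem_of_mem_erase hT)
  obtain ⟨α', hα'⟩ := hinv 1 α hw1 hevα hg1 T hTP
  have h4 : (u : 𝓞 K) ^ 2 ∈ Q := by
    rw [← hα']
    exact Q.mul_mem_right _ hTQ
  have h5 : (u : 𝓞 K) ∈ Q := hQ.mem_of_pow_mem 2 h4
  obtain ⟨k, hk⟩ := hu
  have h6 : (1 : 𝓞 K) = (u : 𝓞 K) - 2 * (k : 𝓞 K) := by
    rw [hk]; push_cast; ring
  have h7 : (1 : 𝓞 K) ∈ Q := by
    rw [h6]
    exact Q.sub_mem h5 (Q.mul_mem_right _ h2Q')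
  exact hQ.ne_top ((Ideal.eq_top_iff_one Q).mpr h7)

/-- There is no perfect sequence of length `4u²` with `u > 1` odd. -/
theorem no_perfSeq (u : ℕ) (hu : Odd u) (hu1 : u ≠ 1) [NeZero (4 * u ^ 2)]
    (h : ZMod (4 * u ^ 2) → ℤ) (hp : PerfSeq (4 * u ^ 2) h) : False := by
  obtain ⟨ζ, hζK⟩ := (CyclotomicField.isCyclotomicExtension
    (4 * u ^ 2) ℚ).exists_isPrimitiveRoot rfl (NeZero.ne _)
  exact core u hu hu1 h hp hζK.toInteger hζK.toInteger_isPrimitiveRoot

theorem main (n : ℕ) (hn : 0 < n) :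
    (∃ h : Fin n → ℤ, (∀ i, h i = 1 ∨ h i = -1) ∧
      Matrix.circulant h * (Matrix.circulant h).transpose = (n : ℤ) • (1 : Matrix (Fin n) (Fin n) ℤ)) ↔
    (n = 1 ∨ n = 4) := by
  constructor
  · rintro ⟨h, hpm, hH⟩
    obtain ⟨m, rfl⟩ : ∃ m, n = m + 1 := ⟨n - 1, by omega⟩
    have hperf := perfSeq_of_circulant m h hpm hH
    rcases turyn hperf with h1 | ⟨u, hu, hn4⟩
    · exact Or.inl h1
    · by_cases hu1 : u = 1
      · right
        rw [hn4, hu1]
        norm_num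
      · exfalso
        have key : ∀ (n : ℕ) [NeZero n] (g : ZMod n → ℤ), PerfSeq n g → n = 4 * u ^ 2 → False := by
          intro n _ g hg hn'
          subst hn'
          exact no_perfSeq u hu hu1 g hg
        exact key (m + 1) h hperf hn4
  · rintro (rfl | rfl)
    · exact ⟨fun _ => 1, fun _ => Or.inl rfl, by decide⟩
    · exact ⟨![-1, 1, 1, 1], by decide, by decide⟩

end Crest.Agent.R44
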